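import Vale.Agent.P273.H681.Loc

/-!
The explicit cell map: distinct points, exchange of labels, Stokes for parallelograms.
-/

noncomputable section
namespace Vale.Agent.P273.H681

open MeasureTheory Set H401
open scoped ContDiff

theorem bmp_contDiff : ContDiff ℝ ∞ bmp :=
  Real.smoothTransition.contDiff.comp (contDiff_const.sub (contDiff_id.pow 2))

theorem bmp_nonneg (t : ℝ) : 0 ≤ bmp t := Real.smoothTransition.nonneg _

theorem bmp_zero : bmp 0 = 1 := by
  unfold bmp
  exact Real.smoothTransition.one_of_one_le (by norm_num)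

theorem bmp_neg (t : ℝ) : bmp (-t) = bmp t := by
  unfold bmp
  rw [neg_sq]

theorem bmp_eq_zero {t : ℝ} (h : 1 ≤ |t|) : bmp t = 0 := by
  unfold bmp
  refine Real.smoothTransition.zero_of_nonpos ?_
  have : 1 ≤ t ^ 2 := by
    rw [← sq_abs]
    nlinarith
  linarith

theorem bmp_hasDerivAt_zero {t : ℝ} (h : 1 ≤ |t|) : HasDerivAt bmp 0 t := by
  have h1 : DifferentiableAt ℝ bmp t := (bmp_contDiff.differentiable (by simp)) t
  have h2 : deriv bmp t = 0 := by
    refine IsLocalMin.deriv_eq_zero (Filter.Eventually.of_forall fun x => ?_)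
    rw [bmp_eq_zero h]
    exact bmp_nonneg x
  rw [← h2]
  exact h1.hasDerivAt

/-- signs -/
def eps (i j : Fin 6) : ℝ := if i < j then 1 else if j < i then -1 else 0

theorem hh_eq (p : Fin 6 → ℝ) (i : Fin 6) : hh p i = ∑ j, eps i j * bmp (p i - p j) := by
  unfold hh eps
  refine Finset.sum_congr rfl fun j _ => ?_
  split_ifs <;> simp

theorem cc_apply (p : Fin 6 → ℝ) (i : Fin 6) : cc p i = (p i : ℂ) + (hh p i : ℂ) * Complex.I := by
  apply Complex.ext <;> simp [cc]

theorem hh_contDiff (i : Fin 6) : ContDiff ℝ ∞ (fun p => hh p i) := by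
  have h : (fun p => hh p i) = fun p : Fin 6 → ℝ => ∑ j, eps i j * bmp (p i - p j) := by
    funext p
    exact hh_eq p i
  rw [h]
  refine ContDiff.sum fun j _ => contDiff_const.mul (bmp_contDiff.comp ?_)
  exact (contDiff_apply ℝ ℝ i).sub (contDiff_apply ℝ ℝ j)

theorem cc_contDiff : ContDiff ℝ ∞ cc := by
  refine contDiff_pi.2 fun i => ?_
  have h : (fun p => cc p i) = fun p : Fin 6 → ℝ =>
      Complex.ofRealCLM (p i) + Complex.ofRealCLM (hh p i) * Complex.I := by
    funext p
    simpa using cc_apply p i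
  rw [h]
  exact (Complex.ofRealCLM.contDiff.comp (contDiff_apply ℝ ℝ i)).add
    ((Complex.ofRealCLM.contDiff.comp (hh_contDiff i)).mul contDiff_const)

theorem eps_sub_nonneg {i j : Fin 6} (h : i < j) (l : Fin 6) : 0 ≤ eps i l - eps j l := by
  unfold eps
  rcases lt_trichotomy i l with h1 | h1 | h1 <;> rcases lt_trichotomy j l with h2 | h2 | h2
  · simp [h1, h2]
  · subst h2; simp [h1]
  · simp [h1, h2, h2.not_gt]
  · exact absurd (h.trans h2) (by rw [h1]; exact lt_irrefl _)
  · exact absurd h (by rw [h1, h2]; exact lt_irrefl _)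
  · subst h1; simp [h2, h2.not_gt]
  · exact absurd (h.trans h2) (not_lt.2 h1.le)
  · exact absurd h (by rw [h2]; exact not_lt.2 h1.le)
  · simp [h1, h2, h1.not_gt, h2.not_gt]

theorem cc_mem (p : Fin 6 → ℝ) : cc p ∈ XX := by
  intro i j hij he
  have he' : p i = p j := he
  show hh p j < hh p i
  rw [hh_eq, hh_eq, ← sub_pos, ← Finset.sum_sub_distrib]
  have h1 : ∀ l, eps i l * bmp (p i - p l) - eps j l * bmp (p j - p l) =
      (eps i l - eps j l) * bmp (p j - p l) := by
    intro l
    rw [he', sub_mul]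
  simp only [h1]
  refine Finset.sum_pos' (fun l _ => mul_nonneg (eps_sub_nonneg hij l) (bmp_nonneg _))
    ⟨j, Finset.mem_univ _, ?_⟩
  rw [sub_self, bmp_zero, mul_one]
  unfold eps
  simp [hij]

theorem isOpen_XX : IsOpen XX := by
  have h : XX = ⋂ i, ⋂ j, {b : C6 | i < j → (b i).re = (b j).re → (b j).im < (b i).im} := by
    ext b
    simp [XX]
  rw [h]
  refine isOpen_iInter_of_finite fun i => isOpen_iInter_of_finite fun j => ?_
  by_cases hij : i < j
  · have h2 : {b : C6 | i < j → (b i).re = (b j).re → (b j).im < (b i).im} =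
        {b : C6 | (b i).re ≠ (b j).re} ∪ {b : C6 | (b j).im < (b i).im} := by
      ext b
      simp only [hij, true_implies, mem_ofPred_eq, mem_union]
      tauto
    rw [h2]
    refine IsOpen.union (isOpen_ne_fun ?_ ?_) (isOpen_lt ?_ ?_)
    · exact Complex.continuous_re.comp (continuous_apply i)
    · exact Complex.continuous_re.comp (continuous_apply j)
    · exact Complex.continuous_im.comp (continuous_apply j)
    · exact Complex.continuous_im.comp (continuous_apply i)
  · simp [hij]

/-- correction vector of the exchange -/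
def corr (k : Fin 5) : C6 := fun i =>
  if i = k.castSucc then 2 * Complex.I else if i = k.succ then -(2 * Complex.I) else 0

/-- integral signs -/
def epsZ (i j : Fin 6) : ℤ := if i < j then 1 else if j < i then -1 else 0

theorem eps_cast (i j : Fin 6) : eps i j = (epsZ i j : ℝ) := by
  unfold eps epsZ
  split_ifs <;> simp

theorem epsZ_swap : ∀ (k : Fin 5) (i l : Fin 6), epsZ i (sw k l) = epsZ (sw k i) l +
    ((if i = k.castSucc then if l = k.castSucc then 2 else 0 else 0) -
      (if i = k.succ then if l = k.succ then 2 else 0 else 0)) := by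
  decide

theorem hh_swap (k : Fin 5) (p : Fin 6 → ℝ) (i : Fin 6) :
    hh (fun j => p (sw k j)) i = hh p (sw k i) +
      ((if i = k.castSucc then 2 * bmp (p k.castSucc - p k.succ) else 0) -
        (if i = k.succ then 2 * bmp (p k.castSucc - p k.succ) else 0)) := by
  have h1 : hh (fun j => p (sw k j)) i = ∑ l, eps i (sw k l) * bmp (p (sw k i) - p l) := by
    rw [hh_eq]
    rw [← Equiv.sum_comp (sw k) (fun l => eps i (sw k l) * bmp (p (sw k i) - p l))]
    refine Finset.sum_congr rfl fun l _ => ?_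
    rw [show sw k (sw k l) = l from Equiv.swap_apply_self _ _ l]
  have h2 : bmp (p k.succ - p k.castSucc) = bmp (p k.castSucc - p k.succ) := by
    rw [← bmp_neg]
    congr 1
    ring
  rw [h1, hh_eq]
  simp only [eps_cast, epsZ_swap, Int.cast_add, Int.cast_sub, add_mul, sub_mul,
    Finset.sum_add_distrib, Finset.sum_sub_distrib]
  congr 1
  congr 1
  · by_cases hi : i = k.castSucc
    · subst hi
      have h3 : sw k k.castSucc = k.succ := Equiv.swap_apply_left _ _
      simp [h3, h2]
    · simp [hi]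
  · by_cases hi : i = k.succ
    · subst hi
      have h3 : sw k k.succ = k.castSucc := Equiv.swap_apply_right _ _
      simp [h3]
    · simp [hi]

theorem cc_swap (k : Fin 5) (p : Fin 6 → ℝ) :
    cc (fun j => p (sw k j)) = swL k (cc p) + bmp (p k.castSucc - p k.succ) • corr k := by
  funext i
  have hne : k.castSucc ≠ k.succ := (Fin.castSucc_lt_succ).ne
  apply Complex.ext
  · by_cases h1 : i = k.castSucc
    · subst h1; simp [cc, swL, corr]
    · by_cases h2 : i = k.succ
      · subst h2; simp [cc, swL, corr, hne.symm]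
      · simp [cc, swL, corr, h1, h2]
  · have h := hh_swap k p i
    by_cases h1 : i = k.castSucc
    · subst h1
      simp only [hne, if_true, if_false] at h
      simp [cc, swL, corr, h]
      ring
    · by_cases h2 : i = k.succ
      · subst h2
        simp only [hne.symm, if_true, if_false] at h
        simp [cc, swL, corr, hne.symm, h]
        ring
      · simp only [h1, h2, if_false] at h
        simp [cc, swL, corr, h1, h2, h]

variable {V F : Type*} [AddCommGroup V] [Module ℝ V] [NormedAddCommGroup F] [NormedSpace ℝ F]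

/-- exchange of two labels, on `R^6` -/
def swR (k : Fin 5) (p : Fin 6 → ℝ) : Fin 6 → ℝ := fun j => p (sw k j)

theorem mem_cube2 {y : Fin 2 → ℝ} (hy : y ∈ Icc (0 : Fin 2 → ℝ) 1) :
    0 ≤ y 0 ∧ 0 ≤ y 1 ∧ y 0 ≤ 1 ∧ y 1 ≤ 1 := ⟨hy.1 0, hy.1 1, hy.2 0, hy.2 1⟩

/-- affine parametrisation of a parallelogram -/
def par (a u w : Fin 6 → ℝ) (y : Fin 2 → ℝ) : Fin 6 → ℝ := a + y 0 • u + y 1 • w

theorem par_contDiff (a u w : Fin 6 → ℝ) : ContDiff ℝ ∞ (par a u w) := by
  unfold par
  exact (contDiff_const.add ((contDiff_apply ℝ ℝ 0).smul contDiff_const)).add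
    ((contDiff_apply ℝ ℝ 1).smul contDiff_const)

theorem Qd_eq (D : Loc2 V F) (v : V) (a u w : Fin 6 → ℝ) :
    Qd D v a u w = cubeInt (pb (fun y => cc (par a u w y)) (D.Phi v)) := rfl

/-- exchange of two labels that are already separated -/
theorem Qd_step (D : Loc2 V F) (k : Fin 5) (v : V) (a u w : Fin 6 → ℝ)
    (h : ∀ y ∈ Icc (0 : Fin 2 → ℝ) 1,
      1 ≤ par a u w y k.castSucc - par a u w y k.succ) :
    Qd D v a u w = Qd D (D.s k v) (swR k a) (swR k u) (swR k w) := by
  rw [Qd_eq, Qd_eq]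
  refine setIntegral_congr_fun measurableSet_Icc fun y hy => ?_
  have hpar : ∀ y, par (swR k a) (swR k u) (swR k w) y = fun j => par a u w y (sw k j) :=
    fun y => rfl
  have hf' : (fun y => cc (par (swR k a) (swR k u) (swR k w) y)) = fun y =>
      swL k (cc (par a u w y)) +
        bmp (par a u w y k.castSucc - par a u w y k.succ) • corr k := by
    funext y
    rw [hpar, cc_swap]
  have h1 : 1 ≤ |par a u w y k.castSucc - par a u w y k.succ| := (h y hy).trans (le_abs_self _)
  have hcd : DifferentiableAt ℝ (fun y => cc (par a u w y)) y :=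
    ((cc_contDiff.comp (par_contDiff a u w)).differentiable (by simp)) y
  have hval : cc (par (swR k a) (swR k u) (swR k w) y) = swL k (cc (par a u w y)) := by
    rw [hpar, cc_swap]
    rw [bmp_eq_zero h1, zero_smul, add_zero]
  have hm : DifferentiableAt ℝ (fun y => par a u w y k.castSucc - par a u w y k.succ) y := by
    have h2 := ((par_contDiff a u w).differentiable (by simp)) y
    exact (differentiableAt_pi.1 h2 _).sub (differentiableAt_pi.1 h2 _)
  have hb : HasFDerivAt (fun y => bmp (par a u w y k.castSucc - par a u w y k.succ))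
      (0 : (Fin 2 → ℝ) →L[ℝ] ℝ) y := by
    have h3 := (bmp_hasDerivAt_zero h1).comp_hasFDerivAt y hm.hasFDerivAt
    rw [zero_smul] at h3
    exact h3
  have hder : fderiv ℝ (fun y => cc (par (swR k a) (swR k u) (swR k w) y)) y =
      (swL k).comp (fderiv ℝ (fun y => cc (par a u w y)) y) := by
    rw [hf']
    have h4 := ((swL k).hasFDerivAt.comp y hcd.hasFDerivAt).add (hb.smul_const (corr k))
    have h5 : ((0 : (Fin 2 → ℝ) →L[ℝ] ℝ).smulRight (corr k) : (Fin 2 → ℝ) →L[ℝ] C6) = 0 := by
      apply ContinuousLinearMap.ext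
      intro z
      simp
    rw [h5, add_zero] at h4
    exact h4.fderiv
  show (D.Phi v (cc (par a u w y))) _ = (D.Phi (D.s k v) (cc (par (swR k a) (swR k u) (swR k w) y))) _
  rw [D.equi k v _ (cc_mem _) (by
    show par a u w y k.succ < par a u w y k.castSucc
    linarith [h y hy]), hval]
  show (D.Phi (D.s k v) (swL k (cc (par a u w y)))) _ = _
  congr 1
  funext j
  show swL k (fderiv ℝ (fun y => cc (par a u w y)) y _) = fderiv ℝ _ y _
  rw [hder]
  rfl

/-- cone over a segment -/
def seg (x z : Fin 6 → ℝ) (t : Fin 2 → ℝ) : Fin 6 → ℝ := t 0 • (x + t 1 • (z - x))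

/-- integral over the cone over a segment -/
def Ld (D : Loc2 V F) (v : V) (x z : Fin 6 → ℝ) : F :=
  cubeInt (pb (fun t => cc (seg x z t)) (D.Phi v))

theorem face0 (t : ℝ) (y : Fin 2 → ℝ) : face (n := 2) 0 t y = ![t, y 0, y 1] := by
  funext i
  fin_cases i
  · rfl
  · rfl
  · rfl

theorem face1 (t : ℝ) (y : Fin 2 → ℝ) : face (n := 2) 1 t y = ![y 0, t, y 1] := by
  funext i
  fin_cases i
  · rfl
  · rfl
  · rfl

theorem face2 (t : ℝ) (y : Fin 2 → ℝ) : face (n := 2) 2 t y = ![y 0, y 1, t] := by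
  funext i
  fin_cases i
  · rfl
  · rfl
  · rfl

/-- Stokes for a closed two-form and a smooth cube in `XX` -/
theorem stokes3 (D : Loc2 V F) (v : V) (σ : (Fin 3 → ℝ) → C6) (hσ : ContDiff ℝ 2 σ)
    (hm : ∀ x, σ x ∈ XX) :
    (cubeInt (pb (fun y : Fin 2 → ℝ => σ ![1, y 0, y 1]) (D.Phi v)) -
      cubeInt (pb (fun y : Fin 2 → ℝ => σ ![0, y 0, y 1]) (D.Phi v))) -
    (cubeInt (pb (fun y : Fin 2 → ℝ => σ ![y 0, 1, y 1]) (D.Phi v)) -
      cubeInt (pb (fun y : Fin 2 → ℝ => σ ![y 0, 0, y 1]) (D.Phi v))) +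
    (cubeInt (pb (fun y : Fin 2 → ℝ => σ ![y 0, y 1, 1]) (D.Phi v)) -
      cubeInt (pb (fun y : Fin 2 → ℝ => σ ![y 0, y 1, 0]) (D.Phi v))) = 0 := by
  have h := stokes_sing (n := 2) (σ := σ) (U := univ) (W := XX) isOpen_univ
    (subset_univ _) isOpen_XX hσ.contDiffOn (D.smooth v) (fun x _ => hm x)
  have h0 : cubeInt (pb σ (extDeriv (D.Phi v))) = 0 := by
    unfold cubeInt
    have : ∀ x, pb σ (extDeriv (D.Phi v)) x (eb 3) = 0 := by
      intro x
      unfold pb
      rw [D.closed v _ (hm x)]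
      rfl
    simp [this]
  rw [h0, Fin.sum_univ_three] at h
  simp only [face0, face1, face2, Fin.val_zero, pow_zero, one_smul, Fin.val_one, pow_one,
    neg_smul, Fin.val_two, even_two, Even.neg_pow, one_pow] at h
  rw [← sub_eq_add_neg] at h
  exact h.symm

theorem cubeInt_const (b : C6) (om : C6 → C6 [⋀^Fin 2]→L[ℝ] F) :
    cubeInt (pb (fun _ : Fin 2 → ℝ => b) om) = 0 := by
  unfold cubeInt
  have : ∀ x : Fin 2 → ℝ, pb (fun _ : Fin 2 → ℝ => b) om x (eb 2) = 0 := by
    intro x
    unfold pb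
    rw [fderiv_const_apply]
    show (om b) (fun j => (0 : (Fin 2 → ℝ) →L[ℝ] C6) (eb 2 j)) = 0
    refine (om b).map_coord_zero (0 : Fin 2) ?_
    rfl
  simp [this]

/-- a parallelogram in terms of the cones over its sides -/
theorem Qd_eq_Ld (D : Loc2 V F) (v : V) (a u w : Fin 6 → ℝ) :
    Qd D v a u w = Ld D v a (a + u) + Ld D v (a + u) (a + u + w) -
      Ld D v (a + w) (a + u + w) - Ld D v a (a + w) := by
  have hσ : ContDiff ℝ 2 (fun x : Fin 3 → ℝ => cc (x 0 • (a + x 1 • u + x 2 • w))) := by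
    refine (contDiff_infty.1 cc_contDiff 2).comp ?_
    exact (contDiff_apply ℝ ℝ 0).smul ((contDiff_const.add
      ((contDiff_apply ℝ ℝ 1).smul contDiff_const)).add
      ((contDiff_apply ℝ ℝ 2).smul contDiff_const))
  have h := stokes3 D v _ hσ (fun x => cc_mem _)
  simp only [Matrix.cons_val_zero, Matrix.cons_val_one, Matrix.cons_val_two, Matrix.head_cons,
    Matrix.tail_cons, Matrix.cons_val, one_smul, zero_smul] at h
  rw [cubeInt_const, sub_zero] at h
  have e1 : Ld D v (a + u) (a + u + w) = cubeInt (pb (fun y : Fin 2 → ℝ =>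
      cc (y 0 • (a + u + y 1 • w))) (D.Phi v)) := by
    unfold Ld seg
    simp only [add_sub_cancel_left]
  have e2 : Ld D v a (a + w) = cubeInt (pb (fun y : Fin 2 → ℝ =>
      cc (y 0 • (a + 0 + y 1 • w))) (D.Phi v)) := by
    unfold Ld seg
    simp only [add_sub_cancel_left, add_zero]
  have e3 : Ld D v (a + w) (a + u + w) = cubeInt (pb (fun y : Fin 2 → ℝ =>
      cc (y 0 • (a + y 1 • u + w))) (D.Phi v)) := by
    unfold Ld seg
    have : ∀ t : Fin 2 → ℝ, a + w + t 1 • (a + u + w - (a + w)) = a + t 1 • u + w := by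
      intro t
      rw [show a + u + w - (a + w) = u by abel]
      abel
    simp only [this]
  have e4 : Ld D v a (a + u) = cubeInt (pb (fun y : Fin 2 → ℝ =>
      cc (y 0 • (a + y 1 • u + 0))) (D.Phi v)) := by
    unfold Ld seg
    simp only [add_sub_cancel_left, add_zero]
  rw [e1, e2, e3, e4]
  have e5 : Qd D v a u w = cubeInt (pb (fun y : Fin 2 → ℝ =>
      cc (a + y 0 • u + y 1 • w)) (D.Phi v)) := rfl
  rw [e5]
  rw [← sub_eq_zero, ← h]
  abel

end Vale.Agent.P273.H681
end
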