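import Mathlib
import Vale.Agent.P273.H401.Stokes

/-!
Interface between the fibre integrals and the cells: a closed two-form with coefficients in a local
system on configurations of six points, and the explicit cells.
-/

noncomputable section
namespace Vale.Agent.P273.H681

open MeasureTheory Set H401

/-- six labelled points -/
abbrev C6 := Fin 6 → ℂ

/-- The part of the configuration space where, whenever two real parts agree, the point with the
smaller label is the upper one. -/
def XX : Set C6 := {b | ∀ i j, i < j → (b i).re = (b j).re → (b j).im < (b i).im}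

/-- exchange of the labels `k` and `k + 1` -/
def sw (k : Fin 5) : Equiv.Perm (Fin 6) := Equiv.swap k.castSucc k.succ

/-- exchange of two labels, on configurations -/
def swL (k : Fin 5) : C6 →L[ℝ] C6 :=
  ContinuousLinearMap.pi fun i => ContinuousLinearMap.proj (sw k i)

/-- A closed two-form on configurations with coefficients in a local system. The coefficient
`v : V` refers to the frame over the part of `XX` where the real parts are increasing, continued
over `XX`; `s k v` is the coefficient after the point `k` has passed above the point `k + 1` from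
the left to the right and the two labels have been exchanged. -/
structure Loc2 (V F : Type*) [AddCommGroup V] [Module ℝ V] [NormedAddCommGroup F]
    [NormedSpace ℝ F] where
  s : Fin 5 → V →ₗ[ℝ] V
  Phi : V →ₗ[ℝ] (C6 → C6 [⋀^Fin 2]→L[ℝ] F)
  smooth : ∀ v, ContDiffOn ℝ 1 (Phi v) XX
  closed : ∀ v, ∀ b ∈ XX, extDeriv (Phi v) b = 0
  equi : ∀ k v, ∀ b ∈ XX, (b k.succ).re < (b k.castSucc).re →
    Phi v b = (Phi (s k v) (swL k b)).compContinuousLinearMap (swL k)

/-- even bump function, `1` at `0`, `0` for `1 ≤ |t|` -/
def bmp (t : ℝ) : ℝ := Real.smoothTransition (1 - t ^ 2)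

/-- the heights -/
def hh (p : Fin 6 → ℝ) (i : Fin 6) : ℝ :=
  ∑ j, (if i < j then bmp (p i - p j) else if j < i then -bmp (p i - p j) else 0)

/-- the map that realises all cells -/
def cc (p : Fin 6 → ℝ) : C6 := fun i => ⟨p i, hh p i⟩

variable {V F : Type*} [AddCommGroup V] [Module ℝ V] [NormedAddCommGroup F] [NormedSpace ℝ F]

/-- integral over the image of a parallelogram -/
def Qd (D : Loc2 V F) (v : V) (a u w : Fin 6 → ℝ) : F :=
  cubeInt (pb (fun y : Fin 2 → ℝ => cc (a + y 0 • u + y 1 • w)) (D.Phi v))

/-- the same for integral vectors -/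
def Q (D : Loc2 V F) (v : V) (a u w : Fin 6 → ℤ) : F :=
  Qd D v (fun i => (a i : ℝ)) (fun i => (u i : ℝ)) (fun i => (w i : ℝ))

/-- the vectors `e_k - e_(k+1)` -/
def rt (k : Fin 5) : Fin 6 → ℤ := fun j => if j = k.castSucc then 1 else if j = k.succ then -1 else 0

/-- the base vertex -/
def bs : Fin 6 → ℤ := fun j => (j : ℤ) + 1

/-- the two-cell `e_(j,k)` for generators that commute: a torus of two half twists -/
def phiT (D : Loc2 V F) (j k : Fin 5) (v : V) : F := Q D v bs (rt j) (rt k)

/-- the two-cell `e_(j,k)`, `k = j + 1`: a hexagon, cut into three parallelograms -/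
def phiH (D : Loc2 V F) (j k : Fin 5) (v : V) : F :=
  Q D v bs (rt j) (rt k) + Q D v (bs + rt j) (rt j + rt k) (rt k) +
    Q D v (bs + rt k) (rt j) (rt j + rt k)

end Vale.Agent.P273.H681
end
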