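import Vale.Agent.P273.H221.Alg
import Vale.Agent.P273.H213.Vmap

/-!
The braid relations of the half twists on the coefficient space.
-/

noncomputable section
namespace Vale.Agent.P273.H681

/-- half twists that are not adjacent commute -/
theorem sR_comm (i j : Fin 5) (h : (i : ℕ) + 2 ≤ j) (p : H213.RR) :
    H213.sR i (H213.sR j p) = H213.sR j (H213.sR i p) := by
  have e : (H213.sR i).comp (H213.sR j) = (H213.sR j).comp (H213.sR i) := by
    refine MvPolynomial.algHom_ext fun k => ?_
    simp only [AlgHom.comp_apply, H213.sR, MvPolynomial.aeval_X]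
    revert h
    fin_cases i <;> fin_cases j <;> intro h <;> first | (exfalso; revert h; decide) | skip
    all_goals
      fin_cases k <;> simp [H213.sub, map_add, map_sub, map_mul, map_ofNat] <;> ring
  exact DFunLike.congr_fun e p

theorem sR_braid (i j : Fin 5) (h : (i : ℕ) + 1 = j) (p : H213.RR) :
    H213.sR j (H213.sR i (H213.sR j p)) = H213.sR i (H213.sR j (H213.sR i p)) := by
  have e : (H213.sR j).comp ((H213.sR i).comp (H213.sR j)) =
      (H213.sR i).comp ((H213.sR j).comp (H213.sR i)) := by
    refine MvPolynomial.algHom_ext fun k => ?_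
    simp only [AlgHom.comp_apply, H213.sR, MvPolynomial.aeval_X]
    revert h
    fin_cases i <;> fin_cases j <;> intro h <;> first | (exfalso; revert h; decide) | skip
    all_goals
      fin_cases k <;> simp [H213.sub, map_add, map_sub, map_mul, map_ofNat] <;> ring
  exact DFunLike.congr_fun e p

theorem braid_sV : H221.Braid H213.sV where
  comm i j h v := by
    refine LinearMap.ext fun p => ?_
    rw [H213.sV_apply, H213.sV_apply, H213.sV_apply, H213.sV_apply, sR_comm i j h]
  braid i j h v := by
    refine LinearMap.ext fun p => ?_
    rw [H213.sV_apply, H213.sV_apply, H213.sV_apply, H213.sV_apply, H213.sV_apply, H213.sV_apply,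
      sR_braid i j h]

end Vale.Agent.P273.H681
end
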