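import Vale.Agent.P273.H681.Eng
import Vale.Agent.P273.H480.Data
import Vale.Agent.P273.H480.Data2

/-!
Kernel checks of the identities between the tables of the certificate.
-/

namespace Vale.Agent.P273.H681

open H480

theorem k_c14 : eq4 (ad (ad (sb tY124 (q1 tY124)) (q1 (q0 tY124))) (ad (sb tY134 (q2 tY134)) (q2
    (q3 tY134)))) tn14 = true := by
  decide +kernel

theorem k_c25 : eq4 (ad (ng (ad (sb tY125 (q0 tY125)) (q0 (q1 tY125)))) (ad (sb tY235 (q2 tY235))
    (q2 (q1 tY235)))) tn25 = true := by
  decide +kernel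

end Vale.Agent.P273.H681
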