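import Vale.Agent.P273.H681.Eng
import Vale.Agent.P273.H480.Data
import Vale.Agent.P273.H480.Data2

/-!
Kernel checks of the identities between the tables of the certificate.
-/

namespace Vale.Agent.P273.H681

open H480

theorem k_c34 : eq4 (sb (sb (q0 tY134) tY134) (sb (ad (sb tY234 (q1 tY234)) (q1 (q2 tY234))) (q1
    (q2 (q3 tY234))))) (ad tn3 tn4) = true := by
  decide +kernel

theorem k_c23 : eq4 (sb (sb (q4 tY235) tY235) (sb (ad (sb tY234 (q3 tY234)) (q3 (q2 tY234))) (q3
    (q2 (q1 tY234))))) z0 = true := by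
  decide +kernel

end Vale.Agent.P273.H681
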