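import Vale.Agent.P273.H681.Eng
import Vale.Agent.P273.H480.Data
import Vale.Agent.P273.H480.Data2

/-!
Kernel checks of the identities between the tables of the certificate.
-/

namespace Vale.Agent.P273.H681

open H480

theorem k_c12 : eq4 (ad (sb (q3 tY124) tY124) (sb (q4 tY125) tY125)) z0 = true := by
  decide +kernel

theorem k_c15 : eq4 (ad (sb tY125 (q1 tY125)) (q1 (q0 tY125))) tw15 = true := by
  decide +kernel

theorem k_c13 : eq4 (ng (ad (sb tY134 (q3 tY134)) (q3 (q2 tY134)))) tw13 = true := by
  decide +kernel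

theorem k_c35 : eq4 (ng (ad (sb tY235 (q1 tY235)) (q1 (q2 tY235)))) tw35 = true := by
  decide +kernel

theorem k_inv14 : eq4 (q0 tn14) tn14 = true := by
  decide +kernel

theorem k_inv25 : eq4 (q4 tn25) tn25 = true := by
  decide +kernel

theorem k_inv3 : eq4 (q2 tn3) tn3 = true := by
  decide +kernel

theorem k_inv4 : eq4 (q3 tn4) tn4 = true := by
  decide +kernel

end Vale.Agent.P273.H681
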