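import Vale.Agent.P273.H681.CertA
import Vale.Agent.P273.H681.CertB
import Vale.Agent.P273.H681.CertC
import Vale.Agent.P273.H681.CertD
import Vale.Agent.P273.H681.Braid

/-!
The certificate as a structure; the kernel checks are in the files `CertA`, .., `CertD`.
-/

namespace Vale.Agent.P273.H681

open H480 H213

set_option linter.unusedSimpArgs false

/-- **the certificate** -/
noncomputable def cert : H221.Cert sV where
  w13 := fnT tw13
  w15 := fnT tw15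
  w35 := fnT tw35
  n14 := fnT tn14
  n25 := fnT tn25
  n3 := fnT tn3
  n4 := fnT tn4
  Y124 := fnT tY124
  Y125 := fnT tY125
  Y235 := fnT tY235
  Y134 := fnT tY134
  Y234 := fnT tY234
  c12 := by
    simp only [sV0, sV1, sV2, sV3, sV4, ← fnT_ad, ← fnT_sb, ← fnT_ng]
    exact fnT_eq0 k_c12
  c14 := by
    simp only [sV0, sV1, sV2, sV3, sV4, ← fnT_ad, ← fnT_sb, ← fnT_ng]
    exact fnT_eq k_c14
  c24 := by
    simp only [sV0, sV1, sV2, sV3, sV4, ← fnT_ad, ← fnT_sb, ← fnT_ng]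
    exact fnT_eq0 k_c24
  c15 := by
    simp only [sV0, sV1, sV2, sV3, sV4, ← fnT_ad, ← fnT_sb, ← fnT_ng]
    exact fnT_eq k_c15
  c25 := by
    simp only [sV0, sV1, sV2, sV3, sV4, ← fnT_ad, ← fnT_sb, ← fnT_ng]
    exact fnT_eq k_c25
  c13 := by
    simp only [sV0, sV1, sV2, sV3, sV4, ← fnT_ad, ← fnT_sb, ← fnT_ng]
    exact fnT_eq k_c13
  c34 := by
    simp only [sV0, sV1, sV2, sV3, sV4, ← fnT_ad, ← fnT_sb, ← fnT_ng]
    exact fnT_eq k_c34
  c23 := by
    simp only [sV0, sV1, sV2, sV3, sV4, ← fnT_ad, ← fnT_sb, ← fnT_ng]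
    exact fnT_eq0 k_c23
  c35 := by
    simp only [sV0, sV1, sV2, sV3, sV4, ← fnT_ad, ← fnT_sb, ← fnT_ng]
    exact fnT_eq k_c35
  inv14 := by
    simp only [sV0, sV1, sV2, sV3, sV4, ← fnT_ad, ← fnT_sb, ← fnT_ng]
    exact fnT_eq k_inv14
  inv25 := by
    simp only [sV0, sV1, sV2, sV3, sV4, ← fnT_ad, ← fnT_sb, ← fnT_ng]
    exact fnT_eq k_inv25
  inv3 := by
    simp only [sV0, sV1, sV2, sV3, sV4, ← fnT_ad, ← fnT_sb, ← fnT_ng]
    exact fnT_eq k_inv3
  inv4 := by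
    simp only [sV0, sV1, sV2, sV3, sV4, ← fnT_ad, ← fnT_sb, ← fnT_ng]
    exact fnT_eq k_inv4

end Vale.Agent.P273.H681
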