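import Vale.Agent.P273.H681.Cert
import Vale.Agent.P273.H213.Plk

/-!
The certificate: coefficients of the circles, weights, the Pluecker relation.
-/

namespace Vale.Agent.P273.H681

open H480 H213 H254

theorem k_v1 : eq4 (H681.ad (sb (q2 tw13) tw13) (sb (q4 tw15) tw15)) tv1 = true := by
  decide +kernel

theorem k_v3 : eq4 (H681.ad (sb tw13 (q0 tw13)) (sb (q4 tw35) tw35)) tv3 = true := by
  decide +kernel

theorem k_v5 : eq4 (H681.ad (sb tw15 (q0 tw15)) (sb tw35 (q2 tw35))) tv5 = true := by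
  decide +kernel

theorem cert_v1 : cert.v1 = fnT tv1 := by
  show (sV 2 (fnT tw13) - fnT tw13) + (sV 4 (fnT tw15) - fnT tw15) = fnT tv1
  rw [sV2, sV4, ← fnT_sb, ← fnT_sb, ← fnT_ad]
  exact fnT_eq k_v1

theorem cert_v3 : cert.v3 = fnT tv3 := by
  show (fnT tw13 - sV 0 (fnT tw13)) + (sV 4 (fnT tw35) - fnT tw35) = fnT tv3
  rw [sV0, sV4, ← fnT_sb, ← fnT_sb, ← fnT_ad]
  exact fnT_eq k_v3

theorem cert_v5 : cert.v5 = fnT tv5 := by
  show (fnT tw15 - sV 0 (fnT tw15)) + (fnT tw35 - sV 2 (fnT tw35)) = fnT tv5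
  rw [sV0, sV2, ← fnT_sb, ← fnT_sb, ← fnT_ad]
  exact fnT_eq k_v5

/-- the entries of weight at least `n`, the others replaced by zero -/
def hv (n : ℕ) (t : Tb) : Tb :=
  tab fun a b c d => cond (Nat.ble (d + n) (a + 7)) (gt t a b c d) 0

theorem wd_eq {m : Fin 5 → ℕ} (hm : ∑ l, m l = 7) : wd m + m 3 = m 0 + 7 := by
  rw [Fin.sum_univ_five] at hm
  have h0 : ww 0 = 2 := rfl
  have h1 : ww 1 = 1 := rfl
  have h2 : ww 2 = 1 := rfl
  have h3 : ww 3 = 0 := rfl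
  have h4 : ww 4 = 1 := rfl
  rw [wd, Fin.sum_univ_five, h0, h1, h2, h3, h4]
  omega

theorem Wt_fnT {n : ℕ} {t : Tb} (h : eq4 (hv n t) z0 = true) : Wt n (fnT t) := by
  refine Wt_fn fun m hm hw => ?_
  have h1 := eq4_sound _ _ h
  have h2 : gt (hv n t) (m 0) (m 1) (m 2) (m 3) = 0 := by
    rw [h1, z0, gt_tab _ (le7 hm)]
  rw [hv, gt_tab _ (le7 hm)] at h2
  have h3 : Nat.ble (m 3 + n) (m 0 + 7) = true := by
    rw [Nat.ble_eq]
    have := wd_eq hm
    omega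
  rw [h3, cond_true] at h2
  show ((vl t m : ℤ) : ℝ) = 0
  rw [vl, h2, Int.cast_zero]

/-- the values on the multiples of the Pluecker relation -/
def pk (t : Tb) : Tb :=
  tab fun a b c d => cond (Nat.ble (a + b + c + d) 5)
    (gt t a b c d - gt t a (b + 1) (c + 1) d + gt t (a + 1) b c (d + 1)) 0

theorem PlV_fnT {t : Tb} (h : eq4 (pk t) z0 = true) : PlV (fnT t) := by
  refine PlV_fn fun m hm => ?_
  have h1 := eq4_sound _ _ h
  have h5 : m 0 + m 1 + m 2 + m 3 ≤ 5 := by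
    rw [Fin.sum_univ_five] at hm; omega
  have h2 : gt (pk t) (m 0) (m 1) (m 2) (m 3) = 0 := by
    rw [h1, z0, gt_tab _ (by omega)]
  rw [pk, gt_tab _ (by omega), Nat.ble_eq_true_of_le h5, cond_true] at h2
  have e1 : vl t (H213.ad 4 4 m) = gt t (m 0) (m 1) (m 2) (m 3) := by simp [vl, H213.ad]
  have e2 : vl t (H213.ad 1 2 m) = gt t (m 0) (m 1 + 1) (m 2 + 1) (m 3) := by simp [vl, H213.ad]
  have e3 : vl t (H213.ad 0 3 m) = gt t (m 0 + 1) (m 1) (m 2) (m 3 + 1) := by simp [vl, H213.ad]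
  rw [e1, e2, e3, ← Int.cast_sub, ← Int.cast_add, h2, Int.cast_zero]

theorem wt_w13 : Wt 9 cert.w13 := Wt_fnT (t := tw13) (by decide +kernel)
theorem wt_w15 : Wt 9 cert.w15 := Wt_fnT (t := tw15) (by decide +kernel)
theorem wt_w35 : Wt 9 cert.w35 := Wt_fnT (t := tw35) (by decide +kernel)
theorem wt_v1 : Wt 8 cert.v1 := cert_v1 ▸ Wt_fnT (t := tv1) (by decide +kernel)
theorem wt_v3 : Wt 8 cert.v3 := cert_v3 ▸ Wt_fnT (t := tv3) (by decide +kernel)
theorem wt_v5 : Wt 8 cert.v5 := cert_v5 ▸ Wt_fnT (t := tv5) (by decide +kernel)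

theorem pl_w13 : PlV cert.w13 := PlV_fnT (t := tw13) (by decide +kernel)
theorem pl_w15 : PlV cert.w15 := PlV_fnT (t := tw15) (by decide +kernel)
theorem pl_w35 : PlV cert.w35 := PlV_fnT (t := tw35) (by decide +kernel)
theorem pl_v1 : PlV cert.v1 := cert_v1 ▸ PlV_fnT (t := tv1) (by decide +kernel)
theorem pl_v3 : PlV cert.v3 := cert_v3 ▸ PlV_fnT (t := tv3) (by decide +kernel)
theorem pl_v5 : PlV cert.v5 := cert_v5 ▸ PlV_fnT (t := tv5) (by decide +kernel)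

end Vale.Agent.P273.H681
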