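import Vale.Agent.P273.H681.FarK
import Vale.Agent.P273.H951.CoreForm
import Vale.Agent.P273.H722.UKU
import Vale.Agent.P273.H604.CutCore
import Vale.Agent.P273.H293.CoreLeg
import Vale.Agent.P273.H232.EIk

/-!
# P273, crew ASY0: the legs of the far core marks

`coreForm_far : CoreForm Far0 D0 (lgP theOne)`: at every admissible point the leg of a far core mark
(after the cut-off at infinity, `w = 0` included) is `± UKD` with the function `KG` of `FarK`.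
-/

noncomputable section

namespace Vale.Agent.P273.H681.FarCore

open Set Filter Topology Complex
open H95 (L ctr IsCl)
open H732 (FarOk)
open H562 (Co W rootsL posE shE Adm bt xe)
open H803 (LegF posj lgP Far0)
open H132 (xeF btF bP bC sC hasFDerivAt_bP)
open H630 (D0 I0 af0 eps0 ysh sep_ctr ell0)
open H722 (ep dep Pa dT aT xT CT shP PT NT NT_spec flT)
open H517 (KF)
open H545 (UKD)
open H580 (theFlatFam theOne cX AX theStms etaX)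
open H604 (Rr chiI Cinf lgI tauI dRt sgI)
open H214 (EIv)
open FarK

/-! ### the algebra of the cut-off -/

theorem UKD_cut {E : Type*} [NormedAddCommGroup E] [NormedSpace ℝ E]
    {P : (Fin 3 → ℂ) × ℂ} (hK : DifferentiableAt ℝ (KF sep_ctr ell0) P) (hne : ∀ k, P.1 k ≠ 0)
    (x β : Fin 3 → ℝ) (p : Pa (Fin 3)) (B : E →L[ℝ] Pa (Fin 3)) (x' : E →L[ℝ] ℂ) (v : E) :
    UKD D0 (KG P) (fderiv ℝ KG P) x β p B x' v =
      (1 - cF P) * UKD D0 (KF sep_ctr ell0 P) (fderiv ℝ (KF sep_ctr ell0) P) x β p B x' v +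
      cF P * fderiv ℝ (D0.CC x β) p (B v) -
      (KF sep_ctr ell0 P (H545.cc D0 x β p)).re * fderiv ℝ cF P (dep p (B v), x' v) := by
  have hG : fderiv ℝ KG P = (1 - cF P) • fderiv ℝ (KF sep_ctr ell0) P +
      (-fderiv ℝ cF P).smulRight (KF sep_ctr ell0 P) :=
    (((hasFDerivAt_cF hne).const_sub 1).smul hK.hasFDerivAt).fderiv
  have e1 : ∀ u : (Fin 3 → ℂ) × ℂ, ∀ c : Fin 3 → ℂ, (fderiv ℝ KG P u) c =
      ((1 - cF P : ℝ) : ℂ) * (fderiv ℝ (KF sep_ctr ell0) P u) c -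
        ((fderiv ℝ cF P u : ℝ) : ℂ) * KF sep_ctr ell0 P c := by
    intro u c
    have e2 : fderiv ℝ KG P u = (1 - cF P) • fderiv ℝ (KF sep_ctr ell0) P u +
        (-fderiv ℝ cF P u) • KF sep_ctr ell0 P := by
      rw [hG]
      rfl
    rw [e2, add_apply, smul_apply, smul_apply, Complex.real_smul, Complex.real_smul]
    push_cast
    ring
  rw [H545.UKD_apply, H545.UKD_apply, e1, KG_apply]
  simp only [add_re, sub_re, re_ofReal_mul]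
  ring

section Pt

variable {R : H95.Region} {m : ∀ k, Fin (R.n k + 1)} {S : L → Bool} {p : Co R m}

/-- the base -/
abbrev bs (r : Co R m) : Pa (Fin 3) := (r.2.2.1, r.2.2.2.1)

theorem bs_mem {N₀ : ℝ} (hN : NT + 1 ≤ N₀) (hp : Adm R m S N₀ p) : bs p ∈ PT NT := by
  intro k
  have h1 := hp.2.1 k
  have h2 := hp.2.2.1 k
  have h3 := Real.pi_gt_three
  refine ⟨?_, ?_, ?_⟩
  · show NT < p.2.2.1 k
    linarith
  · show -(3 * Real.pi) < p.2.2.2.1 k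
    linarith [h2.1]
  · show p.2.2.2.1 k < Real.pi
    linarith [h2.2]

theorem hasFDerivAt_bs (p : Co R m) : HasFDerivAt (bs : Co R m → Pa (Fin 3)) (bC R m) p :=
  (bC R m).hasFDerivAt

theorem ep_bP (r : Co R m) : ep (bP R m r) = fun k => dT (bs r) k ^ 2 := by
  have h1 := H722.sqd_dT (bs r)
  have h2 := H722.ep_shP (bs r)
  show ep (shP (bs r)) = _
  rw [h2, ← h1]
  rfl

theorem dT_ne (q : Pa (Fin 3)) (k : Fin 3) : dT q k ≠ 0 :=
  mul_ne_zero (by norm_num) (Complex.exp_ne_zero _)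

/-- the cut-off in the chart -/
theorem chiI_eq (j : R.Cm) (r : Co R m) (hw : r.2.2.2.2 j ≠ 0) :
    chiI (rootsL r.2.2.1 r.2.2.2.1) (r.2.2.2.2 j)⁻¹ = cF (ep (bP R m r), r.2.2.2.2 j) := by
  rw [ep_bP]
  exact chiI_eq_phF (dT (bs r)) hw

/-- the form at infinity in the chart -/
theorem Cinf_chart {ξ : Fin 6 → ℝ} (hξ : IsCl ξ) (hp : bs p ∈ PT NT) :
    (Cinf (theFlatFam.η ξ) (theFlatFam.A ξ) (rootsL p.2.2.1 p.2.2.2.1)).comp (dRt R m p) =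
      (fderiv ℝ (D0.CC (xeF ξ) (btF ξ)) (bP R m p)).comp (bC R m) := by
  have hb : rootsL p.2.2.1 p.2.2.2.1 ∈ H580.XO := by
    have h := H722.mem_XO hp
    rwa [H722.th_dT] at h
  have hbX : rootsL p.2.2.1 p.2.2.2.1 ∈ H681.XX :=
    H908.rootsL_mem' (H630.sm_of_rad (he := sep_ctr) (ell := ell0) (NT_spec hp).1.le)
      fun k => (hp k).2
  rw [H232.Cinf_eq hξ hbX]
  have h1 : DifferentiableAt ℝ (cX ξ) (rootsL p.2.2.1 p.2.2.2.1) :=
    ((H580.flatX theStms (H580.isCl_alt hξ)).smc _ hb).differentiableAt (by simp)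
  have h2 : DifferentiableAt ℝ (fun r : Co R m => rootsL r.2.2.1 r.2.2.2.1) p :=
    (H293.contDiff_thd.comp (H293.contDiff_bb (R := R) (m := m))).contDiffAt.differentiableAt
      (by simp)
  have h3 : HasFDerivAt (fun r : Co R m => cX ξ (rootsL r.2.2.1 r.2.2.2.1))
      ((fderiv ℝ (cX ξ) (rootsL p.2.2.1 p.2.2.2.1)).comp (dRt R m p)) p :=
    HasFDerivAt.comp (g := cX ξ) (f := fun r : Co R m => rootsL r.2.2.1 r.2.2.2.1) p
      h1.hasFDerivAt h2.hasFDerivAt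
  have h4 : HasFDerivAt (fun r : Co R m => D0.CC (xeF ξ) (btF ξ) (bP R m r))
      ((fderiv ℝ (D0.CC (xeF ξ) (btF ξ)) (bP R m p)).comp (bC R m)) p :=
    HasFDerivAt.comp (g := D0.CC (xeF ξ) (btF ξ)) (f := bP R m) p
      (H722.KapData.hasFDerivAt_CC (NT_spec hp).2.2 (xeF ξ) (btF ξ)) (hasFDerivAt_bP R m p)
  refine h3.unique (h4.congr_of_eventuallyEq ?_)
  have h5 : ∀ᶠ r : Co R m in 𝓝 p, bs r ∈ PT NT :=
    (hasFDerivAt_bs p).continuousAt.eventually_mem ((H722.isOpen_PT NT).mem_nhds hp)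
  filter_upwards [h5] with r hr
  exact (H722.idF ξ hξ (bs r) hr).2

theorem eta_flat (ξ : Fin 6 → ℝ) : theFlatFam.η ξ = etaX theStms ξ := rfl

/-- the uncut form in the chart -/
theorem lgI_chart {ξ : Fin 6 → ℝ} (hξ : IsCl ξ) (hp : bs p ∈ PT NT) {j : L} {s : Bool}
    (h : R.pl j = Sum.inr s) (hc : (R.pl j).isRight = true) (hj : S j = true)
    (hw : p.2.2.2.2 ⟨j, hc⟩ ≠ 0) (h8 : ‖p.2.2.2.2 ⟨j, hc⟩‖ < 1 / 8)
    (hK : DifferentiableAt ℝ (KF sep_ctr ell0) (ep (bP R m p), p.2.2.2.2 ⟨j, hc⟩)) (v : Co R m) :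
    lgI theFlatFam R m S j ξ p v = (if s then -1 else 1 : ℝ) *
      UKD D0 (KF sep_ctr ell0 (ep (bP R m p), p.2.2.2.2 ⟨j, hc⟩))
        (fderiv ℝ (KF sep_ctr ell0) (ep (bP R m p), p.2.2.2.2 ⟨j, hc⟩))
        (xeF ξ) (btF ξ) (bP R m p) (bC R m) (sC R m ⟨j, hc⟩) v := by
  have h1 : lgI theFlatFam R m S j ξ p = (theFlatFam.η ξ (H828.th (H293.dd (H293.bb p)))
      (H293.sC j h p)⁻¹ (H293.sgn s * H722.yc (H722.sqd H293.dd (H293.bb p))
        (H293.sC j h p)⁻¹)).comp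
      (fderiv ℝ (fun r : Co R m => (H828.th (H293.dd (H293.bb r)), (H293.sC j h r)⁻¹)) p) :=
    H293.leg_far (theFlatFam.η ξ) h hj p hw rfl
  have h2 : lgI theFlatFam R m S j ξ p =
      flT ξ bs (fun r : Co R m => (r.2.2.2.2 ⟨j, hc⟩)⁻¹) (H293.sgn s) p := by
    rw [h1, eta_flat]
    have e1 : H722.sqd H293.dd (H293.bb p) = eps0 (bs p).1 (bs p).2 := H722.sqd_dT (bs p)
    rw [e1]
    rfl
  have h3 : flT ξ bs (fun r : Co R m => (r.2.2.2.2 ⟨j, hc⟩)⁻¹) 1 p =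
      UKD D0 (KF sep_ctr ell0 (ep (bP R m p), p.2.2.2.2 ⟨j, hc⟩))
        (fderiv ℝ (KF sep_ctr ell0) (ep (bP R m p), p.2.2.2.2 ⟨j, hc⟩))
        (xeF ξ) (btF ξ) (bP R m p) (bC R m) (sC R m ⟨j, hc⟩) :=
    H722.flat_far_KF hξ (hasFDerivAt_bs p)
      (sC R m ⟨j, hc⟩).hasFDerivAt hp hw h8 hK.hasFDerivAt
  rw [h2]
  rcases Bool.eq_false_or_eq_true s with hs | hs
  · have e1 : H293.sgn s = -1 := by rw [hs]; rfl
    have e2 : (if s then -1 else 1 : ℝ) = -1 := by rw [hs]; rfl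
    rw [e1, e2, H722.flT_neg, h3, neg_one_mul]
    rfl
  · have e1 : H293.sgn s = 1 := by rw [hs]; rfl
    have e2 : (if s then -1 else 1 : ℝ) = 1 := by rw [hs]; rfl
    rw [e1, e2, h3, one_mul]

theorem ep_ne (q : Pa (Fin 3)) (k : Fin 3) : ep q k ≠ 0 := Complex.exp_ne_zero _

theorem posj_snd {j : L} {s : Bool} (h : R.pl j = Sum.inr s) (hc : (R.pl j).isRight = true)
    (r : Co R m) : (posj R m j r).2 = r.2.2.2.2 ⟨j, hc⟩ := by
  rw [H293.posj_core h]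
  rfl

/-- the differential of the cut-off in the chart -/
theorem tauI_chart {j : L} {s : Bool} (h : R.pl j = Sum.inr s) (hc : (R.pl j).isRight = true)
    (hw : p.2.2.2.2 ⟨j, hc⟩ ≠ 0) (v : Co R m) :
    tauI R m j p v = fderiv ℝ cF (ep (bP R m p), p.2.2.2.2 ⟨j, hc⟩)
      (dep (bP R m p) (bC R m v), sC R m ⟨j, hc⟩ v) := by
  have e0 := posj_snd (m := m) h hc
  rw [H604.tauI_eq (by rw [e0]; exact hw)]
  have h1 : (fun r : Co R m => chiI (rootsL r.2.2.1 r.2.2.2.1) (posj R m j r).2⁻¹) =ᶠ[𝓝 p]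
      fun r => cF (ep (bP R m r), r.2.2.2.2 ⟨j, hc⟩) := by
    have h2 : ∀ᶠ r : Co R m in 𝓝 p, r.2.2.2.2 ⟨j, hc⟩ ≠ 0 :=
      (sC R m ⟨j, hc⟩).continuous.continuousAt.eventually_ne hw
    filter_upwards [h2] with r hr
    rw [e0, chiI_eq ⟨j, hc⟩ r hr]
  rw [h1.fderiv_eq]
  have h3 : HasFDerivAt (fun r : Co R m => (ep (bP R m r), r.2.2.2.2 ⟨j, hc⟩))
      (((dep (bP R m p)).comp (bC R m)).prod (sC R m ⟨j, hc⟩)) p :=
    (HasFDerivAt.comp (g := ep) (f := bP R m) p (H722.hasFDerivAt_ep (bP R m p))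
      (hasFDerivAt_bP R m p)).prodMk (sC R m ⟨j, hc⟩).hasFDerivAt
  have h4 := HasFDerivAt.comp (g := cF)
    (f := fun r : Co R m => (ep (bP R m r), r.2.2.2.2 ⟨j, hc⟩)) p
    (hasFDerivAt_cF (p := (ep (bP R m p), p.2.2.2.2 ⟨j, hc⟩)) fun k => ep_ne _ k) h3
  rw [show (fun r : Co R m => cF (ep (bP R m r), r.2.2.2.2 ⟨j, hc⟩)) =
    cF ∘ fun r : Co R m => (ep (bP R m r), r.2.2.2.2 ⟨j, hc⟩) from rfl, h4.fderiv]
  rfl

theorem sheet {j : L} {s : Bool} (h : R.pl j = Sum.inr s) (hc : (R.pl j).isRight = true)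
    (hj : S j = true) (hw : p.2.2.2.2 ⟨j, hc⟩ ≠ 0) :
    shE R m S p j * ((p.2.2.2.2 ⟨j, hc⟩)⁻¹) ^ 3 =
      H293.sgn s * H722.yc (eps0 p.2.2.1 p.2.2.2.1) (p.2.2.2.2 ⟨j, hc⟩)⁻¹ := by
  have h1 := H293.shE_far h hj p (m := m) hw
  have e1 : H722.sqd H293.dd (H293.bb p) = eps0 p.2.2.1 p.2.2.2.1 := H722.sqd_dT (bs p)
  rw [e1] at h1
  exact h1

/-- the function which is cut off -/
theorem EI_chart {ξ : Fin 6 → ℝ} (hξ : IsCl ξ) (hp : bs p ∈ PT NT) {j : L} {s : Bool}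
    (h : R.pl j = Sum.inr s) (hc : (R.pl j).isRight = true) (hj : S j = true)
    (hw : p.2.2.2.2 ⟨j, hc⟩ ≠ 0) (h12 : ‖p.2.2.2.2 ⟨j, hc⟩‖ < 1 / 12) :
    theFlatFam.A ξ (rootsL p.2.2.1 p.2.2.2.1) (EIv (rootsL p.2.2.1 p.2.2.2.1)
      (p.2.2.2.2 ⟨j, hc⟩)⁻¹ (shE R m S p j * ((p.2.2.2.2 ⟨j, hc⟩)⁻¹) ^ 3)) =
      (if s then -1 else 1 : ℝ) * (KF sep_ctr ell0 (ep (bP R m p), p.2.2.2.2 ⟨j, hc⟩)
        (H545.cc D0 (xeF ξ) (btF ξ) (bP R m p))).re ∧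
    sgI (rootsL p.2.2.1 p.2.2.2.1) (p.2.2.2.2 ⟨j, hc⟩)⁻¹
      (shE R m S p j * ((p.2.2.2.2 ⟨j, hc⟩)⁻¹) ^ 3) = if s then -1 else 1 := by
  have hy : ∀ k, 0 ≤ p.2.2.1 k := fun k => by
    have h1 : NT < p.2.2.1 k := (hp k).1
    have h2 := H722.NT_ge
    linarith
  have hSm : H517.Sm (eps0 p.2.2.1 p.2.2.2.1) :=
    H630.sm_of_rad (he := sep_ctr) (ell := ell0) (NT_spec hp).1.le
  have h1 := H232.A_EIv_theta hy hSm (NT_spec hp).1 h12 hw (H722.sum_ccT hξ hp)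
    (A := theFlatFam.A ξ (rootsL p.2.2.1 p.2.2.2.1)) (H722.idF ξ hξ (bs p) hp).1
  have h2 := (H232.th_rootsL (α := p.2.2.2.1) hy hSm).yc_eq h12 hw
  have e1 : ep (bP R m p) = eps0 p.2.2.1 p.2.2.2.1 := H722.ep_shP (bs p)
  have e2 : H545.cc D0 (xeF ξ) (btF ξ) (bP R m p) = H630.cc ξ p.2.2.1 p.2.2.2.1 := rfl
  have hne : (p.2.2.2.2 ⟨j, hc⟩)⁻¹ ^ 3 * H604.Pinf (rootsL p.2.2.1 p.2.2.2.1)
      ((p.2.2.2.2 ⟨j, hc⟩)⁻¹)⁻¹ ≠ 0 :=
    mul_ne_zero (pow_ne_zero _ (inv_ne_zero hw)) (H604.Pinf_ne_zero _ _)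
  rw [sheet h hc hj hw, e1, e2]
  unfold sgI
  rcases Bool.eq_false_or_eq_true s with hs | hs
  · have e3 : H293.sgn s = -1 := by rw [hs]; rfl
    rw [e3, neg_one_mul, h1.2, h2, neg_div, div_self hne, hs]
    constructor
    · simp
    · simp
  · have e3 : H293.sgn s = 1 := by rw [hs]; rfl
    rw [e3, one_mul, h1.1, h2, div_self hne, hs]
    constructor
    · simp
    · simp

end Pt

theorem sgn_re (s : Bool) : (if 0 < (H293.sgn s).re then (1 : ℝ) else -1) =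
    if s then -1 else 1 := by
  cases s <;> simp [H293.sgn]

/-- **the legs of the far core marks** -/
theorem coreForm_far : H951.CoreForm Far0 D0 (lgP theOne) := by
  obtain ⟨A, hA0, hA⟩ := exists_KG
  refine ⟨A, max 5 (NT + 1), hA0.le, le_trans (by norm_num) (le_max_left _ _), ?_⟩
  intro R m S hS p hp j s h hQ ξ hξ
  have hj : S j = true := hQ.1
  have hc : (R.pl j).isRight = true := by simp [h]
  have h5 : (5 : ℝ) ≤ max 5 (NT + 1) := le_max_left _ _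
  have hPT : bs p ∈ PT NT := bs_mem (le_max_right _ _) hp
  have e0 := posj_snd (m := m) h hc p
  have hw11 : ‖p.2.2.2.2 ⟨j, hc⟩‖ ≤ 11⁻¹ := by
    rw [← e0]
    exact H604.zone_far hp h hj
  have hw8 : ‖p.2.2.2.2 ⟨j, hc⟩‖ < 1 / 8 := hw11.trans_lt (by norm_num)
  have e1 : ep (bP R m p) = eps0 p.2.2.1 p.2.2.2.1 := H722.ep_shP (bs p)
  have hε1 : ‖ep (bP R m p)‖ ≤ 1 := by
    rw [e1]
    refine (H630.norm_eps0_le (m := 0) fun k => ?_).trans ?_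
    · have h1 : NT < p.2.2.1 k := (hPT k).1
      have h2 := H722.NT_ge
      linarith
    · norm_num
  have hεr : ‖ep (bP R m p)‖ ≤ I0.rad := by
    rw [e1]
    exact (NT_spec hPT).2.1.le
  obtain ⟨hd, -, hb1, hb2⟩ := hA (ep (bP R m p)) hεr hε1 (fun k => ep_ne _ k)
    (p.2.2.2.2 ⟨j, hc⟩) hw8.le
  refine ⟨KG (ep (bP R m p), p.2.2.2.2 ⟨j, hc⟩), fderiv ℝ KG (ep (bP R m p), p.2.2.2.2 ⟨j, hc⟩),
    hb1, hb2, fun v => ?_⟩
  rw [UKD_cut hd (fun k => ep_ne _ k)]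
  have hCi : Cinf (theFlatFam.η ξ) (theFlatFam.A ξ) (rootsL p.2.2.1 p.2.2.2.1) (dRt R m p v) =
      fderiv ℝ (D0.CC (xeF ξ) (btF ξ)) (bP R m p) (bC R m v) :=
    congrArg (fun T : Co R m →L[ℝ] ℝ => T v) (Cinf_chart hξ hPT)
  by_cases hw : p.2.2.2.2 ⟨j, hc⟩ = 0
  · -- at infinity
    have h1 := H604.lgP_far_zero (F := theFlatFam) (ξ := ξ) (m := m) (p := p) hj
      (by rw [e0]; exact hw)
    have h2 : lgP theOne R m S j ξ p v = (if 0 < (shE R m S p j).re then (1 : ℝ) else -1) *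
        Cinf (theFlatFam.η ξ) (theFlatFam.A ξ) (rootsL p.2.2.1 p.2.2.2.1) (dRt R m p v) :=
      congrArg (fun T : Co R m →L[ℝ] ℝ => T v) h1
    have h3 : shE R m S p j = H293.sgn s := by
      have h4 := H293.shE_far' h hj p (m := m)
      have h5 : H293.sC j h p = 0 := hw
      rw [h5] at h4
      rw [h4]
      simp [H95.gcw, H95.csq]
    have h4 : cF (ep (bP R m p), p.2.2.2.2 ⟨j, hc⟩) = 1 := by
      rw [hw]
      refine cF_eq_one ?_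
      simp [qF]
    have h6 : fderiv ℝ cF (ep (bP R m p), p.2.2.2.2 ⟨j, hc⟩) = 0 := by
      rw [hw]
      exact fderiv_cF_zero (fun k => ep_ne _ k)
    rw [h2, hCi, h4, h6, h3, sgn_re s, sub_self, zero_mul, zero_add, one_mul]
    simp
  · have h1 := H604.lgP_far_eq (F := theFlatFam) hS h5 hp h hj hξ (by rw [e0]; exact hw)
    rw [e0, chiI_eq ⟨j, hc⟩ p hw] at h1
    have h2 : lgP theOne R m S j ξ p v =
        (1 - cF (ep (bP R m p), p.2.2.2.2 ⟨j, hc⟩)) * lgI theFlatFam R m S j ξ p v +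
        (cF (ep (bP R m p), p.2.2.2.2 ⟨j, hc⟩) * sgI (rootsL p.2.2.1 p.2.2.2.1)
          (p.2.2.2.2 ⟨j, hc⟩)⁻¹ (shE R m S p j * ((p.2.2.2.2 ⟨j, hc⟩)⁻¹) ^ 3)) *
        Cinf (theFlatFam.η ξ) (theFlatFam.A ξ) (rootsL p.2.2.1 p.2.2.2.1) (dRt R m p v) -
        theFlatFam.A ξ (rootsL p.2.2.1 p.2.2.2.1) (EIv (rootsL p.2.2.1 p.2.2.2.1)
          (p.2.2.2.2 ⟨j, hc⟩)⁻¹ (shE R m S p j * ((p.2.2.2.2 ⟨j, hc⟩)⁻¹) ^ 3)) *
          tauI R m j p v :=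
      congrArg (fun T : Co R m →L[ℝ] ℝ => T v) h1
    rw [h2, hCi, lgI_chart hξ hPT h hc hj hw hw8 hd, tauI_chart h hc hw]
    by_cases h12 : ‖p.2.2.2.2 ⟨j, hc⟩‖ < 1 / 12
    · obtain ⟨h3, h4⟩ := EI_chart hξ hPT h hc hj hw h12
      rw [h3, h4]
      ring
    · have h3 : 1 ≤ qF (ep (bP R m p), p.2.2.2.2 ⟨j, hc⟩) := one_le_qF (not_lt.1 h12)
      have h4 : cF (ep (bP R m p), p.2.2.2.2 ⟨j, hc⟩) = 0 := phF_eq_zero h3
      have h6 : fderiv ℝ cF (ep (bP R m p), p.2.2.2.2 ⟨j, hc⟩) = 0 :=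
        fderiv_cF_zero' (fun k => ep_ne _ k) h3
      rw [h4, h6]
      simp

end Vale.Agent.P273.H681.FarCore

end
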