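import Vale.Agent.P273.H681.CellB

/-!
The integrals over the cells are linear in the coefficient.
-/

noncomputable section
namespace Vale.Agent.P273.H681

open MeasureTheory Set H401

variable {V F : Type*} [AddCommGroup V] [Module ℝ V] [NormedAddCommGroup F] [NormedSpace ℝ F]

/-- the pull back of `Phi v` by a smooth square in `XX` is integrable -/
theorem integrable_sq (D : Loc2 V F) (v : V) (σ : (Fin 2 → ℝ) → C6) (hσ : ContDiff ℝ 1 σ)
    (hm : ∀ x, σ x ∈ XX) :
    IntegrableOn (fun x => pb σ (D.Phi v) x (eb 2)) (Icc (0 : Fin 2 → ℝ) 1) := by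
  refine ContinuousOn.integrableOn_compact isCompact_Icc ?_
  exact (continuousOn_pb isOpen_univ hσ.contDiffOn (D.smooth v).continuousOn
    (fun x _ => hm x) (eb 2)).mono (subset_univ _)

theorem cubeInt_add (D : Loc2 V F) (v v' : V) (σ : (Fin 2 → ℝ) → C6) (hσ : ContDiff ℝ 1 σ)
    (hm : ∀ x, σ x ∈ XX) :
    cubeInt (pb σ (D.Phi (v + v'))) = cubeInt (pb σ (D.Phi v)) + cubeInt (pb σ (D.Phi v')) := by
  unfold cubeInt
  rw [← integral_add (integrable_sq D v σ hσ hm) (integrable_sq D v' σ hσ hm)]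
  refine integral_congr_ae (Filter.Eventually.of_forall fun x => ?_)
  simp only [pb, map_add]
  rfl

theorem cubeInt_smul (D : Loc2 V F) (c : ℝ) (v : V) (σ : (Fin 2 → ℝ) → C6) :
    cubeInt (pb σ (D.Phi (c • v))) = c • cubeInt (pb σ (D.Phi v)) := by
  unfold cubeInt
  rw [← integral_smul]
  refine integral_congr_ae (Filter.Eventually.of_forall fun x => ?_)
  simp only [pb, map_smul]
  rfl

theorem par_cc_contDiff (a u w : Fin 6 → ℝ) : ContDiff ℝ 1 (fun y => cc (par a u w y)) :=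
  (contDiff_infty.1 (cc_contDiff.comp (par_contDiff a u w)) 1)

theorem Q_add (D : Loc2 V F) (v v' : V) (a u w : Fin 6 → ℤ) :
    Q D (v + v') a u w = Q D v a u w + Q D v' a u w :=
  cubeInt_add D v v' _ (par_cc_contDiff _ _ _) fun _ => cc_mem _

theorem Q_smul (D : Loc2 V F) (c : ℝ) (v : V) (a u w : Fin 6 → ℤ) :
    Q D (c • v) a u w = c • Q D v a u w :=
  cubeInt_smul D c v _

/-- `Q` as a linear map -/
def Ql (D : Loc2 V F) (a u w : Fin 6 → ℤ) : V →ₗ[ℝ] F where
  toFun v := Q D v a u w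
  map_add' v v' := Q_add D v v' a u w
  map_smul' c v := Q_smul D c v a u w

/-- `phiT` as a linear map -/
def phiTl (D : Loc2 V F) (j k : Fin 5) : V →ₗ[ℝ] F := Ql D bs (rt j) (rt k)

/-- `phiH` as a linear map -/
def phiHl (D : Loc2 V F) (j k : Fin 5) : V →ₗ[ℝ] F :=
  Ql D bs (rt j) (rt k) + Ql D (bs + rt j) (rt j + rt k) (rt k) +
    Ql D (bs + rt k) (rt j) (rt j + rt k)

@[simp] theorem phiTl_apply (D : Loc2 V F) (j k : Fin 5) (v : V) : phiTl D j k v = phiT D j k v :=
  rfl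

@[simp] theorem phiHl_apply (D : Loc2 V F) (j k : Fin 5) (v : V) : phiHl D j k v = phiH D j k v :=
  rfl

end Vale.Agent.P273.H681
end
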