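import Vale.Agent.P273.H681.Tab
import Vale.Agent.P273.H213.Fn

/-!
Correctness of the half twists on tables.
-/

namespace Vale.Agent.P273.H681

open Finset H213

/-- sum, difference, opposite of tables, and the zero table -/
def ad (x y : Tb) : Tb := tab fun a b c d => gt x a b c d + gt y a b c d
def sb (x y : Tb) : Tb := tab fun a b c d => gt x a b c d - gt y a b c d
def ng (x : Tb) : Tb := tab fun a b c d => -gt x a b c d
def z0 : Tb := tab fun _ _ _ _ => 0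

theorem nth_bl {α : Type} (d : α) (f : ℕ → α) : ∀ (n s k : ℕ), k < n →
    nth d (bl f n s) k = f (s + k)
  | 0, _, _, h => absurd h (Nat.not_lt_zero _)
  | n + 1, s, 0, _ => rfl
  | n + 1, s, k + 1, h => by
      have := nth_bl d f n (s + 1) k (Nat.lt_of_succ_lt_succ h)
      rw [bl, nth, this, Nat.add_right_comm, Nat.add_assoc]

theorem gt_tab (f : ℕ → ℕ → ℕ → ℕ → ℤ) {a b c d : ℕ} (h : a + b + c + d ≤ 7) :
    gt (tab f) a b c d = f a b c d := by
  rw [gt, tab, nth_bl _ _ _ _ _ (by omega), nth_bl _ _ _ _ _ (by omega),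
    nth_bl _ _ _ _ _ (by omega), nth_bl _ _ _ _ _ (by omega)]
  simp

/-- the values of a table -/
def vl (t : Tb) (m : Fin 5 → ℕ) : ℤ := gt t (m 0) (m 1) (m 2) (m 3)

/-- degree seven -/
theorem le7 {m : Fin 5 → ℕ} (hm : ∑ l, m l = 7) : m 0 + m 1 + m 2 + m 3 ≤ 7 := by
  rw [Fin.sum_univ_five] at hm; omega

theorem m4 {m : Fin 5 → ℕ} (hm : ∑ l, m l = 7) : 7 - m 0 - m 1 - m 2 - m 3 = m 4 := by
  rw [Fin.sum_univ_five] at hm; omega

theorem le7' {m : Fin 5 → ℕ} (hm : ∑ l, m l = 7) (i : Fin 5) : m i ≤ 7 := by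
  rw [Fin.sum_univ_five] at hm; fin_cases i <;> simp <;> omega

theorem dot1 (g : ℕ → ℤ) {n : ℕ} (hn : n ≤ 7) :
    dot g (nth [] rw1 n) 0 = ∑ t ∈ range (n + 1), ((n.choose t : ℕ) : ℤ) * 1 ^ t * g t := by
  interval_cases n <;> simp [dot, nth, rw1, Finset.sum_range_succ, Nat.choose] <;> ring

theorem dotn (g : ℕ → ℤ) {n : ℕ} (hn : n ≤ 7) :
    dot g (nth [] rwn n) 0 = ∑ t ∈ range (n + 1), ((n.choose t : ℕ) : ℤ) * (-1) ^ t * g t := by
  interval_cases n <;> simp [dot, nth, rwn, Finset.sum_range_succ, Nat.choose] <;> ring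

theorem dott (g : ℕ → ℤ) {n : ℕ} (hn : n ≤ 7) :
    dot g (nth [] rwt n) 0 = ∑ t ∈ range (n + 1), ((n.choose t : ℕ) : ℤ) * (-2) ^ t * g t := by
  interval_cases n <;> simp [dot, nth, rwt, Finset.sum_range_succ, Nat.choose] <;> ring

theorem el_congr7 {A : Type*} [CommRing A] {i j : Fin 5} (hij : i ≠ j) (c : A)
    {v w : (Fin 5 → ℕ) → A} (h : ∀ m, ∑ l, m l = 7 → v m = w m) (m : Fin 5 → ℕ)
    (hm : ∑ l, m l = 7) : el i j c v m = el i j c w m := by
  refine Finset.sum_congr rfl fun t ht => ?_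
  rw [h _ ((sum_mv hij (Nat.lt_succ_iff.1 (mem_range.1 ht))).trans hm)]

variable (v : Tb) (m : Fin 5 → ℕ) (hm : ∑ l, m l = 7)
include hm

theorem vl_e20 : vl (e20 v) m = el 2 0 1 (vl v) m := by
  rw [vl, e20, gt_tab _ (le7 hm), dot1 _ (le7' hm 2)]
  refine Finset.sum_congr rfl fun t _ => ?_
  simp [vl, mv]

theorem vl_e31 : vl (e31 v) m = el 3 1 1 (vl v) m := by
  rw [vl, e31, gt_tab _ (le7 hm), dot1 _ (le7' hm 3)]
  refine Finset.sum_congr rfl fun t _ => ?_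
  simp [vl, mv]

theorem vl_e02 : vl (e02 v) m = el 0 2 (-1) (vl v) m := by
  rw [vl, e02, gt_tab _ (le7 hm), dotn _ (le7' hm 0)]
  refine Finset.sum_congr rfl fun t _ => ?_
  simp [vl, mv]

theorem vl_e13 : vl (e13 v) m = el 1 3 (-1) (vl v) m := by
  rw [vl, e13, gt_tab _ (le7 hm), dotn _ (le7' hm 1)]
  refine Finset.sum_congr rfl fun t _ => ?_
  simp [vl, mv]

theorem vl_e32 : vl (e32 v) m = el 3 2 1 (vl v) m := by
  rw [vl, e32, gt_tab _ (le7 hm), dot1 _ (le7' hm 3)]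
  refine Finset.sum_congr rfl fun t _ => ?_
  simp [vl, mv]

theorem vl_e34 : vl (e34 v) m = el 3 4 (-2) (vl v) m := by
  rw [vl, e34, gt_tab _ (le7 hm), dott _ (le7' hm 3)]
  refine Finset.sum_congr rfl fun t _ => ?_
  simp [vl, mv]

theorem vl_e10 : vl (e10 v) m = el 1 0 1 (vl v) m := by
  rw [vl, e10, gt_tab _ (le7 hm), dot1 _ (le7' hm 1)]
  refine Finset.sum_congr rfl fun t _ => ?_
  simp [vl, mv]

theorem vl_e40 : vl (e40 v) m = el 4 0 1 (vl v) m := by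
  rw [vl, e40, gt_tab _ (le7 hm), m4 hm, dot1 _ (le7' hm 4)]
  refine Finset.sum_congr rfl fun t _ => ?_
  simp [vl, mv]

theorem vl_e01 : vl (e01 v) m = el 0 1 (-1) (vl v) m := by
  rw [vl, e01, gt_tab _ (le7 hm), dotn _ (le7' hm 0)]
  refine Finset.sum_congr rfl fun t _ => ?_
  simp [vl, mv]

theorem vl_e23 : vl (e23 v) m = el 2 3 (-1) (vl v) m := by
  rw [vl, e23, gt_tab _ (le7 hm), dotn _ (le7' hm 2)]
  refine Finset.sum_congr rfl fun t _ => ?_
  simp [vl, mv]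

theorem vl_q0 : vl (q0 v) m = sop 0 (vl v) m := by
  rw [q0, vl_e20 _ _ hm]
  exact el_congr7 (by decide) _ (fun m hm => vl_e31 v m hm) m hm

theorem vl_q1 : vl (q1 v) m = sop 1 (vl v) m := by
  rw [q1, vl_e02 _ _ hm]
  exact el_congr7 (by decide) _ (fun m hm => vl_e13 v m hm) m hm

theorem vl_q2 : vl (q2 v) m = sop 2 (vl v) m := by
  rw [q2, vl_e31 _ _ hm]
  refine el_congr7 (by decide) _ (fun m hm => ?_) m hm
  rw [vl_e32 _ _ hm]
  refine el_congr7 (by decide) _ (fun m hm => ?_) m hm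
  rw [vl_e34 _ _ hm]
  refine el_congr7 (by decide) _ (fun m hm => ?_) m hm
  rw [vl_e10 _ _ hm]
  refine el_congr7 (by decide) _ (fun m hm => ?_) m hm
  rw [vl_e20 _ _ hm]
  exact el_congr7 (by decide) _ (fun m hm => vl_e40 v m hm) m hm

theorem vl_q3 : vl (q3 v) m = sop 3 (vl v) m := by
  rw [q3, vl_e01 _ _ hm]
  exact el_congr7 (by decide) _ (fun m hm => vl_e23 v m hm) m hm

theorem vl_q4 : vl (q4 v) m = sop 4 (vl v) m := by
  rw [q4, vl_e10 _ _ hm]
  exact el_congr7 (by decide) _ (fun m hm => vl_e32 v m hm) m hm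

omit hm

/-- the functional of a table -/
noncomputable def fnT (t : Tb) : VV := fn fun m => ((vl t m : ℤ) : ℝ)

theorem fnT_of {k : Fin 5} {t t' : Tb} (h : ∀ m, ∑ l, m l = 7 → vl t' m = sop k (vl t) m) :
    sV k (fnT t) = fnT t' := by
  rw [fnT, fn_sop, fnT]
  refine fn_congr fun m hm => ?_
  have e := congrFun (sop_map (Int.castRingHom ℝ) k (vl t)) m
  rw [h m hm]
  exact e

theorem sV0 (t : Tb) : sV 0 (fnT t) = fnT (q0 t) := fnT_of fun m hm => vl_q0 t m hm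
theorem sV1 (t : Tb) : sV 1 (fnT t) = fnT (q1 t) := fnT_of fun m hm => vl_q1 t m hm
theorem sV2 (t : Tb) : sV 2 (fnT t) = fnT (q2 t) := fnT_of fun m hm => vl_q2 t m hm
theorem sV3 (t : Tb) : sV 3 (fnT t) = fnT (q3 t) := fnT_of fun m hm => vl_q3 t m hm
theorem sV4 (t : Tb) : sV 4 (fnT t) = fnT (q4 t) := fnT_of fun m hm => vl_q4 t m hm

theorem vl_ad (x y : Tb) (m : Fin 5 → ℕ) (hm : ∑ l, m l = 7) : vl (ad x y) m = vl x m + vl y m := by
  rw [vl, ad, gt_tab _ (le7 hm)]; rfl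

theorem vl_sb (x y : Tb) (m : Fin 5 → ℕ) (hm : ∑ l, m l = 7) : vl (sb x y) m = vl x m - vl y m := by
  rw [vl, sb, gt_tab _ (le7 hm)]; rfl

theorem vl_ng (x : Tb) (m : Fin 5 → ℕ) (hm : ∑ l, m l = 7) : vl (ng x) m = -vl x m := by
  rw [vl, ng, gt_tab _ (le7 hm)]; rfl

theorem fnT_ad (x y : Tb) : fnT (ad x y) = fnT x + fnT y := by
  rw [fnT, fnT, fnT, ← fn_add]
  refine fn_congr fun m hm => ?_
  rw [vl_ad _ _ _ hm]; push_cast; rfl

theorem fnT_sb (x y : Tb) : fnT (sb x y) = fnT x - fnT y := by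
  rw [fnT, fnT, fnT, ← fn_sub]
  refine fn_congr fun m hm => ?_
  rw [vl_sb _ _ _ hm]; push_cast; rfl

theorem fnT_ng (x : Tb) : fnT (ng x) = -fnT x := by
  rw [fnT, fnT, ← fn_neg]
  refine fn_congr fun m hm => ?_
  rw [vl_ng _ _ hm]; push_cast; rfl

theorem fnT_z0 : fnT z0 = 0 := by
  rw [fnT, ← fn_zero]
  refine fn_congr fun m hm => ?_
  rw [vl, z0, gt_tab _ (le7 hm)]; simp

theorem eqI_sound : ∀ x y : List ℤ, eqI x y = true → x = y
  | [], [], _ => rfl
  | [], _ :: _, h => by simp [eqI] at h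
  | _ :: _, [], h => by simp [eqI] at h
  | x :: xs, y :: ys, h => by
      simp only [eqI, Bool.and_eq_true, beq_iff_eq] at h
      rw [h.1, eqI_sound xs ys h.2]

theorem eq2_sound : ∀ x y : List (List ℤ), eq2 x y = true → x = y
  | [], [], _ => rfl
  | [], _ :: _, h => by simp [eq2] at h
  | _ :: _, [], h => by simp [eq2] at h
  | x :: xs, y :: ys, h => by
      simp only [eq2, Bool.and_eq_true] at h
      rw [eqI_sound _ _ h.1, eq2_sound xs ys h.2]

theorem eq3_sound : ∀ x y : List (List (List ℤ)), eq3 x y = true → x = y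
  | [], [], _ => rfl
  | [], _ :: _, h => by simp [eq3] at h
  | _ :: _, [], h => by simp [eq3] at h
  | x :: xs, y :: ys, h => by
      simp only [eq3, Bool.and_eq_true] at h
      rw [eq2_sound _ _ h.1, eq3_sound xs ys h.2]

theorem eq4_sound : ∀ x y : Tb, eq4 x y = true → x = y
  | [], [], _ => rfl
  | [], _ :: _, h => by simp [eq4] at h
  | _ :: _, [], h => by simp [eq4] at h
  | x :: xs, y :: ys, h => by
      simp only [eq4, Bool.and_eq_true] at h
      rw [eq3_sound _ _ h.1, eq4_sound xs ys h.2]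

theorem fnT_eq {x y : Tb} (h : eq4 x y = true) : fnT x = fnT y := by rw [eq4_sound x y h]

theorem fnT_eq0 {x : Tb} (h : eq4 x z0 = true) : fnT x = 0 := by rw [eq4_sound x _ h, fnT_z0]

end Vale.Agent.P273.H681
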