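import Vale.Agent.P273.H681.CellA

/-!
The relations given by the three-cells. Generated file: the vertices of the faces are literal.
-/

noncomputable section
namespace Vale.Agent.P273.H681

open MeasureTheory Set H401

variable {V F : Type*} [AddCommGroup V] [Module ℝ V] [NormedAddCommGroup F] [NormedSpace ℝ F]

/-- integral vectors as real vectors -/
def castR (a : Fin 6 → ℤ) : Fin 6 → ℝ := fun i => (a i : ℝ)

theorem castR_add (a b : Fin 6 → ℤ) : castR (a + b) = castR a + castR b := by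
  funext i
  simp [castR]

/-- cone over a segment with integral ends -/
def Lz (D : Loc2 V F) (v : V) (x z : Fin 6 → ℤ) : F := Ld D v (castR x) (castR z)

theorem Q_Lz (D : Loc2 V F) (v : V) {a u w b c d : Fin 6 → ℤ} (hb : a + u = b) (hc : a + w = c)
    (hd : a + u + w = d) :
    Q D v a u w = Lz D v a b + Lz D v b d - Lz D v c d - Lz D v a c := by
  subst hb hc hd
  have h := Qd_eq_Ld D v (castR a) (castR u) (castR w)
  unfold Lz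
  simp only [castR_add]
  exact h

/-- the exchange of the labels `k`, `k + 1` maps the first parallelogram to the second, and the
labels are separated on it -/
def ok (k : Fin 5) (a u w a' u' w' : Fin 6 → ℤ) : Prop :=
  (∀ i, a' i = a (sw k i)) ∧ (∀ i, u' i = u (sw k i)) ∧ (∀ i, w' i = w (sw k i)) ∧
    1 ≤ a k.castSucc - a k.succ ∧
    1 ≤ a k.castSucc - a k.succ + (u k.castSucc - u k.succ) ∧
    1 ≤ a k.castSucc - a k.succ + (w k.castSucc - w k.succ) ∧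
    1 ≤ a k.castSucc - a k.succ + (u k.castSucc - u k.succ) + (w k.castSucc - w k.succ)

instance (k : Fin 5) (a u w a' u' w' : Fin 6 → ℤ) : Decidable (ok k a u w a' u' w') := by
  unfold ok
  infer_instance

theorem Q_step (D : Loc2 V F) (k : Fin 5) (v : V) {a u w a' u' w' : Fin 6 → ℤ}
    (h : ok k a u w a' u' w') : Q D v a u w = Q D (D.s k v) a' u' w' := by
  obtain ⟨h1, h2, h3, h4, h5, h6, h7⟩ := h
  obtain rfl : a' = fun i => a (sw k i) := funext h1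
  obtain rfl : u' = fun i => u (sw k i) := funext h2
  obtain rfl : w' = fun i => w (sw k i) := funext h3
  refine Qd_step D k v _ _ _ fun y hy => ?_
  obtain ⟨y0, y1, z0, z1⟩ := mem_cube2 hy
  have e4 : (1 : ℝ) ≤ (a k.castSucc : ℝ) - a k.succ := by exact_mod_cast h4
  have e5 : (1 : ℝ) ≤ (a k.castSucc : ℝ) - a k.succ + ((u k.castSucc : ℝ) - u k.succ) := by
    exact_mod_cast h5
  have e6 : (1 : ℝ) ≤ (a k.castSucc : ℝ) - a k.succ + ((w k.castSucc : ℝ) - w k.succ) := by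
    exact_mod_cast h6
  have e7 : (1 : ℝ) ≤ (a k.castSucc : ℝ) - a k.succ + ((u k.castSucc : ℝ) - u k.succ) +
      ((w k.castSucc : ℝ) - w k.succ) := by exact_mod_cast h7
  show (1 : ℝ) ≤ ((a k.castSucc : ℝ) + y 0 * u k.castSucc + y 1 * w k.castSucc) -
    (a k.succ + y 0 * u k.succ + y 1 * w k.succ)
  have key : ∀ A U W : ℝ, 1 ≤ A → 1 ≤ A + U → 1 ≤ A + W → 1 ≤ A + U + W →
      1 ≤ A + y 0 * U + y 1 * W := by
    intro A U W q1 q2 q3 q4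
    nlinarith [mul_nonneg (sub_nonneg.2 z0) (sub_nonneg.2 z1), mul_nonneg y0 (sub_nonneg.2 z1),
      mul_nonneg (sub_nonneg.2 z0) y1, mul_nonneg y0 y1,
      mul_le_mul_of_nonneg_left q1 (mul_nonneg (sub_nonneg.2 z0) (sub_nonneg.2 z1)),
      mul_le_mul_of_nonneg_left q2 (mul_nonneg y0 (sub_nonneg.2 z1)),
      mul_le_mul_of_nonneg_left q3 (mul_nonneg (sub_nonneg.2 z0) y1),
      mul_le_mul_of_nonneg_left q4 (mul_nonneg y0 y1)]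
  have := key _ _ _ e4 e5 e6 e7
  linarith

theorem phiH_01 (D : Loc2 V F) (v : V) : phiH D 0 1 v =
    Q D v ![1, 2, 3, 4, 5, 6] ![1, -1, 0, 0, 0, 0] ![0, 1, -1, 0, 0, 0] +
    Q D v ![2, 1, 3, 4, 5, 6] ![1, 0, -1, 0, 0, 0] ![0, 1, -1, 0, 0, 0] +
    Q D v ![1, 3, 2, 4, 5, 6] ![1, -1, 0, 0, 0, 0] ![1, 0, -1, 0, 0, 0] := by
  unfold phiH
  rw [show bs = ![1, 2, 3, 4, 5, 6] by decide, show rt 0 = ![1, -1, 0, 0, 0, 0] by decide,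
    show rt 1 = ![0, 1, -1, 0, 0, 0] by decide]
  rw [show (![1, 2, 3, 4, 5, 6] : Fin 6 → ℤ) + ![1, -1, 0, 0, 0, 0] = ![2, 1, 3, 4, 5, 6] by decide,
    show (![1, 2, 3, 4, 5, 6] : Fin 6 → ℤ) + ![0, 1, -1, 0, 0, 0] = ![1, 3, 2, 4, 5, 6] by decide,
    show (![1, -1, 0, 0, 0, 0] : Fin 6 → ℤ) + ![0, 1, -1, 0, 0, 0] = ![1, 0, -1, 0, 0, 0] by decide]

theorem phiH_12 (D : Loc2 V F) (v : V) : phiH D 1 2 v =
    Q D v ![1, 2, 3, 4, 5, 6] ![0, 1, -1, 0, 0, 0] ![0, 0, 1, -1, 0, 0] +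
    Q D v ![1, 3, 2, 4, 5, 6] ![0, 1, 0, -1, 0, 0] ![0, 0, 1, -1, 0, 0] +
    Q D v ![1, 2, 4, 3, 5, 6] ![0, 1, -1, 0, 0, 0] ![0, 1, 0, -1, 0, 0] := by
  unfold phiH
  rw [show bs = ![1, 2, 3, 4, 5, 6] by decide, show rt 1 = ![0, 1, -1, 0, 0, 0] by decide,
    show rt 2 = ![0, 0, 1, -1, 0, 0] by decide]
  rw [show (![1, 2, 3, 4, 5, 6] : Fin 6 → ℤ) + ![0, 1, -1, 0, 0, 0] = ![1, 3, 2, 4, 5, 6] by decide,
    show (![1, 2, 3, 4, 5, 6] : Fin 6 → ℤ) + ![0, 0, 1, -1, 0, 0] = ![1, 2, 4, 3, 5, 6] by decide,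
    show (![0, 1, -1, 0, 0, 0] : Fin 6 → ℤ) + ![0, 0, 1, -1, 0, 0] = ![0, 1, 0, -1, 0, 0] by decide]

theorem phiH_23 (D : Loc2 V F) (v : V) : phiH D 2 3 v =
    Q D v ![1, 2, 3, 4, 5, 6] ![0, 0, 1, -1, 0, 0] ![0, 0, 0, 1, -1, 0] +
    Q D v ![1, 2, 4, 3, 5, 6] ![0, 0, 1, 0, -1, 0] ![0, 0, 0, 1, -1, 0] +
    Q D v ![1, 2, 3, 5, 4, 6] ![0, 0, 1, -1, 0, 0] ![0, 0, 1, 0, -1, 0] := by
  unfold phiH
  rw [show bs = ![1, 2, 3, 4, 5, 6] by decide, show rt 2 = ![0, 0, 1, -1, 0, 0] by decide,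
    show rt 3 = ![0, 0, 0, 1, -1, 0] by decide]
  rw [show (![1, 2, 3, 4, 5, 6] : Fin 6 → ℤ) + ![0, 0, 1, -1, 0, 0] = ![1, 2, 4, 3, 5, 6] by decide,
    show (![1, 2, 3, 4, 5, 6] : Fin 6 → ℤ) + ![0, 0, 0, 1, -1, 0] = ![1, 2, 3, 5, 4, 6] by decide,
    show (![0, 0, 1, -1, 0, 0] : Fin 6 → ℤ) + ![0, 0, 0, 1, -1, 0] = ![0, 0, 1, 0, -1, 0] by decide]

theorem phiH_34 (D : Loc2 V F) (v : V) : phiH D 3 4 v =
    Q D v ![1, 2, 3, 4, 5, 6] ![0, 0, 0, 1, -1, 0] ![0, 0, 0, 0, 1, -1] +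
    Q D v ![1, 2, 3, 5, 4, 6] ![0, 0, 0, 1, 0, -1] ![0, 0, 0, 0, 1, -1] +
    Q D v ![1, 2, 3, 4, 6, 5] ![0, 0, 0, 1, -1, 0] ![0, 0, 0, 1, 0, -1] := by
  unfold phiH
  rw [show bs = ![1, 2, 3, 4, 5, 6] by decide, show rt 3 = ![0, 0, 0, 1, -1, 0] by decide,
    show rt 4 = ![0, 0, 0, 0, 1, -1] by decide]
  rw [show (![1, 2, 3, 4, 5, 6] : Fin 6 → ℤ) + ![0, 0, 0, 1, -1, 0] = ![1, 2, 3, 5, 4, 6] by decide,
    show (![1, 2, 3, 4, 5, 6] : Fin 6 → ℤ) + ![0, 0, 0, 0, 1, -1] = ![1, 2, 3, 4, 6, 5] by decide,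
    show (![0, 0, 0, 1, -1, 0] : Fin 6 → ℤ) + ![0, 0, 0, 0, 1, -1] = ![0, 0, 0, 1, 0, -1] by decide]

theorem phiT_02 (D : Loc2 V F) (v : V) : phiT D 0 2 v =
    Q D v ![1, 2, 3, 4, 5, 6] ![1, -1, 0, 0, 0, 0] ![0, 0, 1, -1, 0, 0] := by
  unfold phiT
  rw [show bs = ![1, 2, 3, 4, 5, 6] by decide, show rt 0 = ![1, -1, 0, 0, 0, 0] by decide,
    show rt 2 = ![0, 0, 1, -1, 0, 0] by decide]

theorem phiT_03 (D : Loc2 V F) (v : V) : phiT D 0 3 v =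
    Q D v ![1, 2, 3, 4, 5, 6] ![1, -1, 0, 0, 0, 0] ![0, 0, 0, 1, -1, 0] := by
  unfold phiT
  rw [show bs = ![1, 2, 3, 4, 5, 6] by decide, show rt 0 = ![1, -1, 0, 0, 0, 0] by decide,
    show rt 3 = ![0, 0, 0, 1, -1, 0] by decide]

theorem phiT_04 (D : Loc2 V F) (v : V) : phiT D 0 4 v =
    Q D v ![1, 2, 3, 4, 5, 6] ![1, -1, 0, 0, 0, 0] ![0, 0, 0, 0, 1, -1] := by
  unfold phiT
  rw [show bs = ![1, 2, 3, 4, 5, 6] by decide, show rt 0 = ![1, -1, 0, 0, 0, 0] by decide,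
    show rt 4 = ![0, 0, 0, 0, 1, -1] by decide]

theorem phiT_13 (D : Loc2 V F) (v : V) : phiT D 1 3 v =
    Q D v ![1, 2, 3, 4, 5, 6] ![0, 1, -1, 0, 0, 0] ![0, 0, 0, 1, -1, 0] := by
  unfold phiT
  rw [show bs = ![1, 2, 3, 4, 5, 6] by decide, show rt 1 = ![0, 1, -1, 0, 0, 0] by decide,
    show rt 3 = ![0, 0, 0, 1, -1, 0] by decide]

theorem phiT_14 (D : Loc2 V F) (v : V) : phiT D 1 4 v =
    Q D v ![1, 2, 3, 4, 5, 6] ![0, 1, -1, 0, 0, 0] ![0, 0, 0, 0, 1, -1] := by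
  unfold phiT
  rw [show bs = ![1, 2, 3, 4, 5, 6] by decide, show rt 1 = ![0, 1, -1, 0, 0, 0] by decide,
    show rt 4 = ![0, 0, 0, 0, 1, -1] by decide]

theorem phiT_24 (D : Loc2 V F) (v : V) : phiT D 2 4 v =
    Q D v ![1, 2, 3, 4, 5, 6] ![0, 0, 1, -1, 0, 0] ![0, 0, 0, 0, 1, -1] := by
  unfold phiT
  rw [show bs = ![1, 2, 3, 4, 5, 6] by decide, show rt 2 = ![0, 0, 1, -1, 0, 0] by decide,
    show rt 4 = ![0, 0, 0, 0, 1, -1] by decide]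

end Vale.Agent.P273.H681
end
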