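import Vale.Agent.P273.H681.CellB

/-!
Relations given by three-cells. Generated file: the vertices of the faces are literal.
-/

noncomputable section
namespace Vale.Agent.P273.H681

variable {V F : Type*} [AddCommGroup V] [Module ℝ V] [NormedAddCommGroup F] [NormedSpace ℝ F]

/-- the relation of the three-cell with generators 0, 2, 4 -/
theorem rel_024 (D : Loc2 V F) (v : V) :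
    -phiT D 2 4 v + phiT D 2 4 (D.s 0 v) + phiT D 0 4 v - phiT D 0 4 (D.s 2 v) - phiT D 0 2 v
      + phiT D 0 2 (D.s 4 v) = 0 := by
  simp only [phiT_02, phiT_04, phiT_24]
  have g1 : Q D v ![1, 2, 3, 4, 5, 6] ![0, 0, 1, -1, 0, 0] ![0, 0, 0, 0, 1, -1] =
      Lz D v ![1, 2, 3, 4, 5, 6] ![1, 2, 4, 3, 5, 6] + Lz D v ![1, 2, 4, 3, 5, 6]
        ![1, 2, 4, 3, 6, 5] - Lz D v ![1, 2, 3, 4, 6, 5] ![1, 2, 4, 3, 6, 5] -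
        Lz D v ![1, 2, 3, 4, 5, 6] ![1, 2, 3, 4, 6, 5] :=
    Q_Lz D v (by decide) (by decide) (by decide)
  have e2 : Q D v ![2, 1, 3, 4, 5, 6] ![0, 0, 1, -1, 0, 0] ![0, 0, 0, 0, 1, -1] =
      Q D (D.s 0 v) ![1, 2, 3, 4, 5, 6] ![0, 0, 1, -1, 0, 0] ![0, 0, 0, 0, 1, -1] := by
    rw [Q_step D 0 v (a := ![2, 1, 3, 4, 5, 6]) (u := ![0, 0, 1, -1, 0, 0]) (w := ![0, 0, 0, 0, 1, -1])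
      (a' := ![1, 2, 3, 4, 5, 6]) (u' := ![0, 0, 1, -1, 0, 0]) (w' := ![0, 0, 0, 0, 1, -1]) (by decide)]
  have g2 : Q D v ![2, 1, 3, 4, 5, 6] ![0, 0, 1, -1, 0, 0] ![0, 0, 0, 0, 1, -1] =
      Lz D v ![2, 1, 3, 4, 5, 6] ![2, 1, 4, 3, 5, 6] + Lz D v ![2, 1, 4, 3, 5, 6]
        ![2, 1, 4, 3, 6, 5] - Lz D v ![2, 1, 3, 4, 6, 5] ![2, 1, 4, 3, 6, 5] -
        Lz D v ![2, 1, 3, 4, 5, 6] ![2, 1, 3, 4, 6, 5] :=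
    Q_Lz D v (by decide) (by decide) (by decide)
  have g3 : Q D v ![1, 2, 3, 4, 5, 6] ![1, -1, 0, 0, 0, 0] ![0, 0, 0, 0, 1, -1] =
      Lz D v ![1, 2, 3, 4, 5, 6] ![2, 1, 3, 4, 5, 6] + Lz D v ![2, 1, 3, 4, 5, 6]
        ![2, 1, 3, 4, 6, 5] - Lz D v ![1, 2, 3, 4, 6, 5] ![2, 1, 3, 4, 6, 5] -
        Lz D v ![1, 2, 3, 4, 5, 6] ![1, 2, 3, 4, 6, 5] :=
    Q_Lz D v (by decide) (by decide) (by decide)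
  have e4 : Q D v ![1, 2, 4, 3, 5, 6] ![1, -1, 0, 0, 0, 0] ![0, 0, 0, 0, 1, -1] =
      Q D (D.s 2 v) ![1, 2, 3, 4, 5, 6] ![1, -1, 0, 0, 0, 0] ![0, 0, 0, 0, 1, -1] := by
    rw [Q_step D 2 v (a := ![1, 2, 4, 3, 5, 6]) (u := ![1, -1, 0, 0, 0, 0]) (w := ![0, 0, 0, 0, 1, -1])
      (a' := ![1, 2, 3, 4, 5, 6]) (u' := ![1, -1, 0, 0, 0, 0]) (w' := ![0, 0, 0, 0, 1, -1]) (by decide)]
  have g4 : Q D v ![1, 2, 4, 3, 5, 6] ![1, -1, 0, 0, 0, 0] ![0, 0, 0, 0, 1, -1] =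
      Lz D v ![1, 2, 4, 3, 5, 6] ![2, 1, 4, 3, 5, 6] + Lz D v ![2, 1, 4, 3, 5, 6]
        ![2, 1, 4, 3, 6, 5] - Lz D v ![1, 2, 4, 3, 6, 5] ![2, 1, 4, 3, 6, 5] -
        Lz D v ![1, 2, 4, 3, 5, 6] ![1, 2, 4, 3, 6, 5] :=
    Q_Lz D v (by decide) (by decide) (by decide)
  have g5 : Q D v ![1, 2, 3, 4, 5, 6] ![1, -1, 0, 0, 0, 0] ![0, 0, 1, -1, 0, 0] =
      Lz D v ![1, 2, 3, 4, 5, 6] ![2, 1, 3, 4, 5, 6] + Lz D v ![2, 1, 3, 4, 5, 6]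
        ![2, 1, 4, 3, 5, 6] - Lz D v ![1, 2, 4, 3, 5, 6] ![2, 1, 4, 3, 5, 6] -
        Lz D v ![1, 2, 3, 4, 5, 6] ![1, 2, 4, 3, 5, 6] :=
    Q_Lz D v (by decide) (by decide) (by decide)
  have e6 : Q D v ![1, 2, 3, 4, 6, 5] ![1, -1, 0, 0, 0, 0] ![0, 0, 1, -1, 0, 0] =
      Q D (D.s 4 v) ![1, 2, 3, 4, 5, 6] ![1, -1, 0, 0, 0, 0] ![0, 0, 1, -1, 0, 0] := by
    rw [Q_step D 4 v (a := ![1, 2, 3, 4, 6, 5]) (u := ![1, -1, 0, 0, 0, 0]) (w := ![0, 0, 1, -1, 0, 0])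
      (a' := ![1, 2, 3, 4, 5, 6]) (u' := ![1, -1, 0, 0, 0, 0]) (w' := ![0, 0, 1, -1, 0, 0]) (by decide)]
  have g6 : Q D v ![1, 2, 3, 4, 6, 5] ![1, -1, 0, 0, 0, 0] ![0, 0, 1, -1, 0, 0] =
      Lz D v ![1, 2, 3, 4, 6, 5] ![2, 1, 3, 4, 6, 5] + Lz D v ![2, 1, 3, 4, 6, 5]
        ![2, 1, 4, 3, 6, 5] - Lz D v ![1, 2, 4, 3, 6, 5] ![2, 1, 4, 3, 6, 5] -
        Lz D v ![1, 2, 3, 4, 6, 5] ![1, 2, 4, 3, 6, 5] :=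
    Q_Lz D v (by decide) (by decide) (by decide)
  rw [g1, ← e2, g2, g3, ← e4, g4, g5, ← e6,
    g6]
  abel

/-- the relation of the three-cell with generators 0, 1, 2 -/
theorem rel_012 (D : Loc2 V F) (v : V) :
    -phiH D 1 2 v + phiH D 1 2 (D.s 0 v) - phiH D 1 2 (D.s 0 (D.s 1 v))
      + phiH D 1 2 (D.s 0 (D.s 1 (D.s 2 v))) + phiT D 0 2 v - phiT D 0 2 (D.s 1 v)
      + phiT D 0 2 (D.s 1 (D.s 2 v)) + phiT D 0 2 (D.s 1 (D.s 0 v))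
      - phiT D 0 2 (D.s 1 (D.s 2 (D.s 0 v))) + phiT D 0 2 (D.s 1 (D.s 2 (D.s 0 (D.s 1 v))))
      - phiH D 0 1 v + phiH D 0 1 (D.s 2 v) - phiH D 0 1 (D.s 2 (D.s 1 v))
      + phiH D 0 1 (D.s 2 (D.s 1 (D.s 0 v))) = 0 := by
  simp only [phiH_01, phiH_12, phiT_02]
  have g1 : Q D v ![1, 2, 3, 4, 5, 6] ![0, 1, -1, 0, 0, 0] ![0, 0, 1, -1, 0, 0] =
      Lz D v ![1, 2, 3, 4, 5, 6] ![1, 3, 2, 4, 5, 6] + Lz D v ![1, 3, 2, 4, 5, 6]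
        ![1, 3, 3, 3, 5, 6] - Lz D v ![1, 2, 4, 3, 5, 6] ![1, 3, 3, 3, 5, 6] -
        Lz D v ![1, 2, 3, 4, 5, 6] ![1, 2, 4, 3, 5, 6] :=
    Q_Lz D v (by decide) (by decide) (by decide)
  have g2 : Q D v ![1, 3, 2, 4, 5, 6] ![0, 1, 0, -1, 0, 0] ![0, 0, 1, -1, 0, 0] =
      Lz D v ![1, 3, 2, 4, 5, 6] ![1, 4, 2, 3, 5, 6] + Lz D v ![1, 4, 2, 3, 5, 6]
        ![1, 4, 3, 2, 5, 6] - Lz D v ![1, 3, 3, 3, 5, 6] ![1, 4, 3, 2, 5, 6] -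
        Lz D v ![1, 3, 2, 4, 5, 6] ![1, 3, 3, 3, 5, 6] :=
    Q_Lz D v (by decide) (by decide) (by decide)
  have g3 : Q D v ![1, 2, 4, 3, 5, 6] ![0, 1, -1, 0, 0, 0] ![0, 1, 0, -1, 0, 0] =
      Lz D v ![1, 2, 4, 3, 5, 6] ![1, 3, 3, 3, 5, 6] + Lz D v ![1, 3, 3, 3, 5, 6]
        ![1, 4, 3, 2, 5, 6] - Lz D v ![1, 3, 4, 2, 5, 6] ![1, 4, 3, 2, 5, 6] -
        Lz D v ![1, 2, 4, 3, 5, 6] ![1, 3, 4, 2, 5, 6] :=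
    Q_Lz D v (by decide) (by decide) (by decide)
  have e4 : Q D v ![2, 1, 3, 4, 5, 6] ![1, 0, -1, 0, 0, 0] ![0, 0, 1, -1, 0, 0] =
      Q D (D.s 0 v) ![1, 2, 3, 4, 5, 6] ![0, 1, -1, 0, 0, 0] ![0, 0, 1, -1, 0, 0] := by
    rw [Q_step D 0 v (a := ![2, 1, 3, 4, 5, 6]) (u := ![1, 0, -1, 0, 0, 0]) (w := ![0, 0, 1, -1, 0, 0])
      (a' := ![1, 2, 3, 4, 5, 6]) (u' := ![0, 1, -1, 0, 0, 0]) (w' := ![0, 0, 1, -1, 0, 0]) (by decide)]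
  have g4 : Q D v ![2, 1, 3, 4, 5, 6] ![1, 0, -1, 0, 0, 0] ![0, 0, 1, -1, 0, 0] =
      Lz D v ![2, 1, 3, 4, 5, 6] ![3, 1, 2, 4, 5, 6] + Lz D v ![3, 1, 2, 4, 5, 6]
        ![3, 1, 3, 3, 5, 6] - Lz D v ![2, 1, 4, 3, 5, 6] ![3, 1, 3, 3, 5, 6] -
        Lz D v ![2, 1, 3, 4, 5, 6] ![2, 1, 4, 3, 5, 6] :=
    Q_Lz D v (by decide) (by decide) (by decide)
  have e5 : Q D v ![3, 1, 2, 4, 5, 6] ![1, 0, 0, -1, 0, 0] ![0, 0, 1, -1, 0, 0] =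
      Q D (D.s 0 v) ![1, 3, 2, 4, 5, 6] ![0, 1, 0, -1, 0, 0] ![0, 0, 1, -1, 0, 0] := by
    rw [Q_step D 0 v (a := ![3, 1, 2, 4, 5, 6]) (u := ![1, 0, 0, -1, 0, 0]) (w := ![0, 0, 1, -1, 0, 0])
      (a' := ![1, 3, 2, 4, 5, 6]) (u' := ![0, 1, 0, -1, 0, 0]) (w' := ![0, 0, 1, -1, 0, 0]) (by decide)]
  have g5 : Q D v ![3, 1, 2, 4, 5, 6] ![1, 0, 0, -1, 0, 0] ![0, 0, 1, -1, 0, 0] =
      Lz D v ![3, 1, 2, 4, 5, 6] ![4, 1, 2, 3, 5, 6] + Lz D v ![4, 1, 2, 3, 5, 6]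
        ![4, 1, 3, 2, 5, 6] - Lz D v ![3, 1, 3, 3, 5, 6] ![4, 1, 3, 2, 5, 6] -
        Lz D v ![3, 1, 2, 4, 5, 6] ![3, 1, 3, 3, 5, 6] :=
    Q_Lz D v (by decide) (by decide) (by decide)
  have e6 : Q D v ![2, 1, 4, 3, 5, 6] ![1, 0, -1, 0, 0, 0] ![1, 0, 0, -1, 0, 0] =
      Q D (D.s 0 v) ![1, 2, 4, 3, 5, 6] ![0, 1, -1, 0, 0, 0] ![0, 1, 0, -1, 0, 0] := by
    rw [Q_step D 0 v (a := ![2, 1, 4, 3, 5, 6]) (u := ![1, 0, -1, 0, 0, 0]) (w := ![1, 0, 0, -1, 0, 0])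
      (a' := ![1, 2, 4, 3, 5, 6]) (u' := ![0, 1, -1, 0, 0, 0]) (w' := ![0, 1, 0, -1, 0, 0]) (by decide)]
  have g6 : Q D v ![2, 1, 4, 3, 5, 6] ![1, 0, -1, 0, 0, 0] ![1, 0, 0, -1, 0, 0] =
      Lz D v ![2, 1, 4, 3, 5, 6] ![3, 1, 3, 3, 5, 6] + Lz D v ![3, 1, 3, 3, 5, 6]
        ![4, 1, 3, 2, 5, 6] - Lz D v ![3, 1, 4, 2, 5, 6] ![4, 1, 3, 2, 5, 6] -
        Lz D v ![2, 1, 4, 3, 5, 6] ![3, 1, 4, 2, 5, 6] :=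
    Q_Lz D v (by decide) (by decide) (by decide)
  have e7 : Q D v ![2, 3, 1, 4, 5, 6] ![1, -1, 0, 0, 0, 0] ![0, 1, 0, -1, 0, 0] =
      Q D (D.s 0 (D.s 1 v)) ![1, 2, 3, 4, 5, 6] ![0, 1, -1, 0, 0, 0] ![0, 0, 1, -1, 0, 0] := by
    rw [Q_step D 1 v (a := ![2, 3, 1, 4, 5, 6]) (u := ![1, -1, 0, 0, 0, 0]) (w := ![0, 1, 0, -1, 0, 0])
      (a' := ![2, 1, 3, 4, 5, 6]) (u' := ![1, 0, -1, 0, 0, 0]) (w' := ![0, 0, 1, -1, 0, 0]) (by decide)]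
    rw [Q_step D 0 (D.s 1 v) (a := ![2, 1, 3, 4, 5, 6]) (u := ![1, 0, -1, 0, 0, 0]) (w := ![0, 0, 1, -1, 0, 0])
      (a' := ![1, 2, 3, 4, 5, 6]) (u' := ![0, 1, -1, 0, 0, 0]) (w' := ![0, 0, 1, -1, 0, 0]) (by decide)]
  have g7 : Q D v ![2, 3, 1, 4, 5, 6] ![1, -1, 0, 0, 0, 0] ![0, 1, 0, -1, 0, 0] =
      Lz D v ![2, 3, 1, 4, 5, 6] ![3, 2, 1, 4, 5, 6] + Lz D v ![3, 2, 1, 4, 5, 6]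
        ![3, 3, 1, 3, 5, 6] - Lz D v ![2, 4, 1, 3, 5, 6] ![3, 3, 1, 3, 5, 6] -
        Lz D v ![2, 3, 1, 4, 5, 6] ![2, 4, 1, 3, 5, 6] :=
    Q_Lz D v (by decide) (by decide) (by decide)
  have e8 : Q D v ![3, 2, 1, 4, 5, 6] ![1, 0, 0, -1, 0, 0] ![0, 1, 0, -1, 0, 0] =
      Q D (D.s 0 (D.s 1 v)) ![1, 3, 2, 4, 5, 6] ![0, 1, 0, -1, 0, 0] ![0, 0, 1, -1, 0, 0] := by
    rw [Q_step D 1 v (a := ![3, 2, 1, 4, 5, 6]) (u := ![1, 0, 0, -1, 0, 0]) (w := ![0, 1, 0, -1, 0, 0])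
      (a' := ![3, 1, 2, 4, 5, 6]) (u' := ![1, 0, 0, -1, 0, 0]) (w' := ![0, 0, 1, -1, 0, 0]) (by decide)]
    rw [Q_step D 0 (D.s 1 v) (a := ![3, 1, 2, 4, 5, 6]) (u := ![1, 0, 0, -1, 0, 0]) (w := ![0, 0, 1, -1, 0, 0])
      (a' := ![1, 3, 2, 4, 5, 6]) (u' := ![0, 1, 0, -1, 0, 0]) (w' := ![0, 0, 1, -1, 0, 0]) (by decide)]
  have g8 : Q D v ![3, 2, 1, 4, 5, 6] ![1, 0, 0, -1, 0, 0] ![0, 1, 0, -1, 0, 0] =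
      Lz D v ![3, 2, 1, 4, 5, 6] ![4, 2, 1, 3, 5, 6] + Lz D v ![4, 2, 1, 3, 5, 6]
        ![4, 3, 1, 2, 5, 6] - Lz D v ![3, 3, 1, 3, 5, 6] ![4, 3, 1, 2, 5, 6] -
        Lz D v ![3, 2, 1, 4, 5, 6] ![3, 3, 1, 3, 5, 6] :=
    Q_Lz D v (by decide) (by decide) (by decide)
  have e9 : Q D v ![2, 4, 1, 3, 5, 6] ![1, -1, 0, 0, 0, 0] ![1, 0, 0, -1, 0, 0] =
      Q D (D.s 0 (D.s 1 v)) ![1, 2, 4, 3, 5, 6] ![0, 1, -1, 0, 0, 0] ![0, 1, 0, -1, 0, 0] := by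
    rw [Q_step D 1 v (a := ![2, 4, 1, 3, 5, 6]) (u := ![1, -1, 0, 0, 0, 0]) (w := ![1, 0, 0, -1, 0, 0])
      (a' := ![2, 1, 4, 3, 5, 6]) (u' := ![1, 0, -1, 0, 0, 0]) (w' := ![1, 0, 0, -1, 0, 0]) (by decide)]
    rw [Q_step D 0 (D.s 1 v) (a := ![2, 1, 4, 3, 5, 6]) (u := ![1, 0, -1, 0, 0, 0]) (w := ![1, 0, 0, -1, 0, 0])
      (a' := ![1, 2, 4, 3, 5, 6]) (u' := ![0, 1, -1, 0, 0, 0]) (w' := ![0, 1, 0, -1, 0, 0]) (by decide)]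
  have g9 : Q D v ![2, 4, 1, 3, 5, 6] ![1, -1, 0, 0, 0, 0] ![1, 0, 0, -1, 0, 0] =
      Lz D v ![2, 4, 1, 3, 5, 6] ![3, 3, 1, 3, 5, 6] + Lz D v ![3, 3, 1, 3, 5, 6]
        ![4, 3, 1, 2, 5, 6] - Lz D v ![3, 4, 1, 2, 5, 6] ![4, 3, 1, 2, 5, 6] -
        Lz D v ![2, 4, 1, 3, 5, 6] ![3, 4, 1, 2, 5, 6] :=
    Q_Lz D v (by decide) (by decide) (by decide)
  have e10 : Q D v ![2, 3, 4, 1, 5, 6] ![1, -1, 0, 0, 0, 0] ![0, 1, -1, 0, 0, 0] =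
      Q D (D.s 0 (D.s 1 (D.s 2 v))) ![1, 2, 3, 4, 5, 6] ![0, 1, -1, 0, 0, 0] ![0, 0, 1, -1, 0, 0] := by
    rw [Q_step D 2 v (a := ![2, 3, 4, 1, 5, 6]) (u := ![1, -1, 0, 0, 0, 0]) (w := ![0, 1, -1, 0, 0, 0])
      (a' := ![2, 3, 1, 4, 5, 6]) (u' := ![1, -1, 0, 0, 0, 0]) (w' := ![0, 1, 0, -1, 0, 0]) (by decide)]
    rw [Q_step D 1 (D.s 2 v) (a := ![2, 3, 1, 4, 5, 6]) (u := ![1, -1, 0, 0, 0, 0]) (w := ![0, 1, 0, -1, 0, 0])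
      (a' := ![2, 1, 3, 4, 5, 6]) (u' := ![1, 0, -1, 0, 0, 0]) (w' := ![0, 0, 1, -1, 0, 0]) (by decide)]
    rw [Q_step D 0 (D.s 1 (D.s 2 v)) (a := ![2, 1, 3, 4, 5, 6]) (u := ![1, 0, -1, 0, 0, 0]) (w := ![0, 0, 1, -1, 0, 0])
      (a' := ![1, 2, 3, 4, 5, 6]) (u' := ![0, 1, -1, 0, 0, 0]) (w' := ![0, 0, 1, -1, 0, 0]) (by decide)]
  have g10 : Q D v ![2, 3, 4, 1, 5, 6] ![1, -1, 0, 0, 0, 0] ![0, 1, -1, 0, 0, 0] =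
      Lz D v ![2, 3, 4, 1, 5, 6] ![3, 2, 4, 1, 5, 6] + Lz D v ![3, 2, 4, 1, 5, 6]
        ![3, 3, 3, 1, 5, 6] - Lz D v ![2, 4, 3, 1, 5, 6] ![3, 3, 3, 1, 5, 6] -
        Lz D v ![2, 3, 4, 1, 5, 6] ![2, 4, 3, 1, 5, 6] :=
    Q_Lz D v (by decide) (by decide) (by decide)
  have e11 : Q D v ![3, 2, 4, 1, 5, 6] ![1, 0, -1, 0, 0, 0] ![0, 1, -1, 0, 0, 0] =
      Q D (D.s 0 (D.s 1 (D.s 2 v))) ![1, 3, 2, 4, 5, 6] ![0, 1, 0, -1, 0, 0] ![0, 0, 1, -1, 0, 0] := by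
    rw [Q_step D 2 v (a := ![3, 2, 4, 1, 5, 6]) (u := ![1, 0, -1, 0, 0, 0]) (w := ![0, 1, -1, 0, 0, 0])
      (a' := ![3, 2, 1, 4, 5, 6]) (u' := ![1, 0, 0, -1, 0, 0]) (w' := ![0, 1, 0, -1, 0, 0]) (by decide)]
    rw [Q_step D 1 (D.s 2 v) (a := ![3, 2, 1, 4, 5, 6]) (u := ![1, 0, 0, -1, 0, 0]) (w := ![0, 1, 0, -1, 0, 0])
      (a' := ![3, 1, 2, 4, 5, 6]) (u' := ![1, 0, 0, -1, 0, 0]) (w' := ![0, 0, 1, -1, 0, 0]) (by decide)]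
    rw [Q_step D 0 (D.s 1 (D.s 2 v)) (a := ![3, 1, 2, 4, 5, 6]) (u := ![1, 0, 0, -1, 0, 0]) (w := ![0, 0, 1, -1, 0, 0])
      (a' := ![1, 3, 2, 4, 5, 6]) (u' := ![0, 1, 0, -1, 0, 0]) (w' := ![0, 0, 1, -1, 0, 0]) (by decide)]
  have g11 : Q D v ![3, 2, 4, 1, 5, 6] ![1, 0, -1, 0, 0, 0] ![0, 1, -1, 0, 0, 0] =
      Lz D v ![3, 2, 4, 1, 5, 6] ![4, 2, 3, 1, 5, 6] + Lz D v ![4, 2, 3, 1, 5, 6]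
        ![4, 3, 2, 1, 5, 6] - Lz D v ![3, 3, 3, 1, 5, 6] ![4, 3, 2, 1, 5, 6] -
        Lz D v ![3, 2, 4, 1, 5, 6] ![3, 3, 3, 1, 5, 6] :=
    Q_Lz D v (by decide) (by decide) (by decide)
  have e12 : Q D v ![2, 4, 3, 1, 5, 6] ![1, -1, 0, 0, 0, 0] ![1, 0, -1, 0, 0, 0] =
      Q D (D.s 0 (D.s 1 (D.s 2 v))) ![1, 2, 4, 3, 5, 6] ![0, 1, -1, 0, 0, 0] ![0, 1, 0, -1, 0, 0] := by
    rw [Q_step D 2 v (a := ![2, 4, 3, 1, 5, 6]) (u := ![1, -1, 0, 0, 0, 0]) (w := ![1, 0, -1, 0, 0, 0])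
      (a' := ![2, 4, 1, 3, 5, 6]) (u' := ![1, -1, 0, 0, 0, 0]) (w' := ![1, 0, 0, -1, 0, 0]) (by decide)]
    rw [Q_step D 1 (D.s 2 v) (a := ![2, 4, 1, 3, 5, 6]) (u := ![1, -1, 0, 0, 0, 0]) (w := ![1, 0, 0, -1, 0, 0])
      (a' := ![2, 1, 4, 3, 5, 6]) (u' := ![1, 0, -1, 0, 0, 0]) (w' := ![1, 0, 0, -1, 0, 0]) (by decide)]
    rw [Q_step D 0 (D.s 1 (D.s 2 v)) (a := ![2, 1, 4, 3, 5, 6]) (u := ![1, 0, -1, 0, 0, 0]) (w := ![1, 0, 0, -1, 0, 0])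
      (a' := ![1, 2, 4, 3, 5, 6]) (u' := ![0, 1, -1, 0, 0, 0]) (w' := ![0, 1, 0, -1, 0, 0]) (by decide)]
  have g12 : Q D v ![2, 4, 3, 1, 5, 6] ![1, -1, 0, 0, 0, 0] ![1, 0, -1, 0, 0, 0] =
      Lz D v ![2, 4, 3, 1, 5, 6] ![3, 3, 3, 1, 5, 6] + Lz D v ![3, 3, 3, 1, 5, 6]
        ![4, 3, 2, 1, 5, 6] - Lz D v ![3, 4, 2, 1, 5, 6] ![4, 3, 2, 1, 5, 6] -
        Lz D v ![2, 4, 3, 1, 5, 6] ![3, 4, 2, 1, 5, 6] :=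
    Q_Lz D v (by decide) (by decide) (by decide)
  have g13 : Q D v ![1, 2, 3, 4, 5, 6] ![1, -1, 0, 0, 0, 0] ![0, 0, 1, -1, 0, 0] =
      Lz D v ![1, 2, 3, 4, 5, 6] ![2, 1, 3, 4, 5, 6] + Lz D v ![2, 1, 3, 4, 5, 6]
        ![2, 1, 4, 3, 5, 6] - Lz D v ![1, 2, 4, 3, 5, 6] ![2, 1, 4, 3, 5, 6] -
        Lz D v ![1, 2, 3, 4, 5, 6] ![1, 2, 4, 3, 5, 6] :=
    Q_Lz D v (by decide) (by decide) (by decide)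
  have e14 : Q D v ![1, 3, 2, 4, 5, 6] ![1, 0, -1, 0, 0, 0] ![0, 1, 0, -1, 0, 0] =
      Q D (D.s 1 v) ![1, 2, 3, 4, 5, 6] ![1, -1, 0, 0, 0, 0] ![0, 0, 1, -1, 0, 0] := by
    rw [Q_step D 1 v (a := ![1, 3, 2, 4, 5, 6]) (u := ![1, 0, -1, 0, 0, 0]) (w := ![0, 1, 0, -1, 0, 0])
      (a' := ![1, 2, 3, 4, 5, 6]) (u' := ![1, -1, 0, 0, 0, 0]) (w' := ![0, 0, 1, -1, 0, 0]) (by decide)]
  have g14 : Q D v ![1, 3, 2, 4, 5, 6] ![1, 0, -1, 0, 0, 0] ![0, 1, 0, -1, 0, 0] =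
      Lz D v ![1, 3, 2, 4, 5, 6] ![2, 3, 1, 4, 5, 6] + Lz D v ![2, 3, 1, 4, 5, 6]
        ![2, 4, 1, 3, 5, 6] - Lz D v ![1, 4, 2, 3, 5, 6] ![2, 4, 1, 3, 5, 6] -
        Lz D v ![1, 3, 2, 4, 5, 6] ![1, 4, 2, 3, 5, 6] :=
    Q_Lz D v (by decide) (by decide) (by decide)
  have e15 : Q D v ![1, 3, 4, 2, 5, 6] ![1, 0, 0, -1, 0, 0] ![0, 1, -1, 0, 0, 0] =
      Q D (D.s 1 (D.s 2 v)) ![1, 2, 3, 4, 5, 6] ![1, -1, 0, 0, 0, 0] ![0, 0, 1, -1, 0, 0] := by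
    rw [Q_step D 2 v (a := ![1, 3, 4, 2, 5, 6]) (u := ![1, 0, 0, -1, 0, 0]) (w := ![0, 1, -1, 0, 0, 0])
      (a' := ![1, 3, 2, 4, 5, 6]) (u' := ![1, 0, -1, 0, 0, 0]) (w' := ![0, 1, 0, -1, 0, 0]) (by decide)]
    rw [Q_step D 1 (D.s 2 v) (a := ![1, 3, 2, 4, 5, 6]) (u := ![1, 0, -1, 0, 0, 0]) (w := ![0, 1, 0, -1, 0, 0])
      (a' := ![1, 2, 3, 4, 5, 6]) (u' := ![1, -1, 0, 0, 0, 0]) (w' := ![0, 0, 1, -1, 0, 0]) (by decide)]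
  have g15 : Q D v ![1, 3, 4, 2, 5, 6] ![1, 0, 0, -1, 0, 0] ![0, 1, -1, 0, 0, 0] =
      Lz D v ![1, 3, 4, 2, 5, 6] ![2, 3, 4, 1, 5, 6] + Lz D v ![2, 3, 4, 1, 5, 6]
        ![2, 4, 3, 1, 5, 6] - Lz D v ![1, 4, 3, 2, 5, 6] ![2, 4, 3, 1, 5, 6] -
        Lz D v ![1, 3, 4, 2, 5, 6] ![1, 4, 3, 2, 5, 6] :=
    Q_Lz D v (by decide) (by decide) (by decide)
  have e16 : Q D v ![3, 1, 2, 4, 5, 6] ![0, 1, -1, 0, 0, 0] ![1, 0, 0, -1, 0, 0] =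
      Q D (D.s 1 (D.s 0 v)) ![1, 2, 3, 4, 5, 6] ![1, -1, 0, 0, 0, 0] ![0, 0, 1, -1, 0, 0] := by
    rw [Q_step D 0 v (a := ![3, 1, 2, 4, 5, 6]) (u := ![0, 1, -1, 0, 0, 0]) (w := ![1, 0, 0, -1, 0, 0])
      (a' := ![1, 3, 2, 4, 5, 6]) (u' := ![1, 0, -1, 0, 0, 0]) (w' := ![0, 1, 0, -1, 0, 0]) (by decide)]
    rw [Q_step D 1 (D.s 0 v) (a := ![1, 3, 2, 4, 5, 6]) (u := ![1, 0, -1, 0, 0, 0]) (w := ![0, 1, 0, -1, 0, 0])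
      (a' := ![1, 2, 3, 4, 5, 6]) (u' := ![1, -1, 0, 0, 0, 0]) (w' := ![0, 0, 1, -1, 0, 0]) (by decide)]
  have g16 : Q D v ![3, 1, 2, 4, 5, 6] ![0, 1, -1, 0, 0, 0] ![1, 0, 0, -1, 0, 0] =
      Lz D v ![3, 1, 2, 4, 5, 6] ![3, 2, 1, 4, 5, 6] + Lz D v ![3, 2, 1, 4, 5, 6]
        ![4, 2, 1, 3, 5, 6] - Lz D v ![4, 1, 2, 3, 5, 6] ![4, 2, 1, 3, 5, 6] -
        Lz D v ![3, 1, 2, 4, 5, 6] ![4, 1, 2, 3, 5, 6] :=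
    Q_Lz D v (by decide) (by decide) (by decide)
  have e17 : Q D v ![3, 1, 4, 2, 5, 6] ![0, 1, 0, -1, 0, 0] ![1, 0, -1, 0, 0, 0] =
      Q D (D.s 1 (D.s 2 (D.s 0 v))) ![1, 2, 3, 4, 5, 6] ![1, -1, 0, 0, 0, 0] ![0, 0, 1, -1, 0, 0] := by
    rw [Q_step D 0 v (a := ![3, 1, 4, 2, 5, 6]) (u := ![0, 1, 0, -1, 0, 0]) (w := ![1, 0, -1, 0, 0, 0])
      (a' := ![1, 3, 4, 2, 5, 6]) (u' := ![1, 0, 0, -1, 0, 0]) (w' := ![0, 1, -1, 0, 0, 0]) (by decide)]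
    rw [Q_step D 2 (D.s 0 v) (a := ![1, 3, 4, 2, 5, 6]) (u := ![1, 0, 0, -1, 0, 0]) (w := ![0, 1, -1, 0, 0, 0])
      (a' := ![1, 3, 2, 4, 5, 6]) (u' := ![1, 0, -1, 0, 0, 0]) (w' := ![0, 1, 0, -1, 0, 0]) (by decide)]
    rw [Q_step D 1 (D.s 2 (D.s 0 v)) (a := ![1, 3, 2, 4, 5, 6]) (u := ![1, 0, -1, 0, 0, 0]) (w := ![0, 1, 0, -1, 0, 0])
      (a' := ![1, 2, 3, 4, 5, 6]) (u' := ![1, -1, 0, 0, 0, 0]) (w' := ![0, 0, 1, -1, 0, 0]) (by decide)]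
  have g17 : Q D v ![3, 1, 4, 2, 5, 6] ![0, 1, 0, -1, 0, 0] ![1, 0, -1, 0, 0, 0] =
      Lz D v ![3, 1, 4, 2, 5, 6] ![3, 2, 4, 1, 5, 6] + Lz D v ![3, 2, 4, 1, 5, 6]
        ![4, 2, 3, 1, 5, 6] - Lz D v ![4, 1, 3, 2, 5, 6] ![4, 2, 3, 1, 5, 6] -
        Lz D v ![3, 1, 4, 2, 5, 6] ![4, 1, 3, 2, 5, 6] :=
    Q_Lz D v (by decide) (by decide) (by decide)
  have e18 : Q D v ![3, 4, 1, 2, 5, 6] ![0, 0, 1, -1, 0, 0] ![1, -1, 0, 0, 0, 0] =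
      Q D (D.s 1 (D.s 2 (D.s 0 (D.s 1 v)))) ![1, 2, 3, 4, 5, 6] ![1, -1, 0, 0, 0, 0] ![0, 0, 1, -1, 0, 0] := by
    rw [Q_step D 1 v (a := ![3, 4, 1, 2, 5, 6]) (u := ![0, 0, 1, -1, 0, 0]) (w := ![1, -1, 0, 0, 0, 0])
      (a' := ![3, 1, 4, 2, 5, 6]) (u' := ![0, 1, 0, -1, 0, 0]) (w' := ![1, 0, -1, 0, 0, 0]) (by decide)]
    rw [Q_step D 0 (D.s 1 v) (a := ![3, 1, 4, 2, 5, 6]) (u := ![0, 1, 0, -1, 0, 0]) (w := ![1, 0, -1, 0, 0, 0])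
      (a' := ![1, 3, 4, 2, 5, 6]) (u' := ![1, 0, 0, -1, 0, 0]) (w' := ![0, 1, -1, 0, 0, 0]) (by decide)]
    rw [Q_step D 2 (D.s 0 (D.s 1 v)) (a := ![1, 3, 4, 2, 5, 6]) (u := ![1, 0, 0, -1, 0, 0]) (w := ![0, 1, -1, 0, 0, 0])
      (a' := ![1, 3, 2, 4, 5, 6]) (u' := ![1, 0, -1, 0, 0, 0]) (w' := ![0, 1, 0, -1, 0, 0]) (by decide)]
    rw [Q_step D 1 (D.s 2 (D.s 0 (D.s 1 v))) (a := ![1, 3, 2, 4, 5, 6]) (u := ![1, 0, -1, 0, 0, 0]) (w := ![0, 1, 0, -1, 0, 0])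
      (a' := ![1, 2, 3, 4, 5, 6]) (u' := ![1, -1, 0, 0, 0, 0]) (w' := ![0, 0, 1, -1, 0, 0]) (by decide)]
  have g18 : Q D v ![3, 4, 1, 2, 5, 6] ![0, 0, 1, -1, 0, 0] ![1, -1, 0, 0, 0, 0] =
      Lz D v ![3, 4, 1, 2, 5, 6] ![3, 4, 2, 1, 5, 6] + Lz D v ![3, 4, 2, 1, 5, 6]
        ![4, 3, 2, 1, 5, 6] - Lz D v ![4, 3, 1, 2, 5, 6] ![4, 3, 2, 1, 5, 6] -
        Lz D v ![3, 4, 1, 2, 5, 6] ![4, 3, 1, 2, 5, 6] :=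
    Q_Lz D v (by decide) (by decide) (by decide)
  have g19 : Q D v ![1, 2, 3, 4, 5, 6] ![1, -1, 0, 0, 0, 0] ![0, 1, -1, 0, 0, 0] =
      Lz D v ![1, 2, 3, 4, 5, 6] ![2, 1, 3, 4, 5, 6] + Lz D v ![2, 1, 3, 4, 5, 6]
        ![2, 2, 2, 4, 5, 6] - Lz D v ![1, 3, 2, 4, 5, 6] ![2, 2, 2, 4, 5, 6] -
        Lz D v ![1, 2, 3, 4, 5, 6] ![1, 3, 2, 4, 5, 6] :=
    Q_Lz D v (by decide) (by decide) (by decide)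
  have g20 : Q D v ![2, 1, 3, 4, 5, 6] ![1, 0, -1, 0, 0, 0] ![0, 1, -1, 0, 0, 0] =
      Lz D v ![2, 1, 3, 4, 5, 6] ![3, 1, 2, 4, 5, 6] + Lz D v ![3, 1, 2, 4, 5, 6]
        ![3, 2, 1, 4, 5, 6] - Lz D v ![2, 2, 2, 4, 5, 6] ![3, 2, 1, 4, 5, 6] -
        Lz D v ![2, 1, 3, 4, 5, 6] ![2, 2, 2, 4, 5, 6] :=
    Q_Lz D v (by decide) (by decide) (by decide)
  have g21 : Q D v ![1, 3, 2, 4, 5, 6] ![1, -1, 0, 0, 0, 0] ![1, 0, -1, 0, 0, 0] =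
      Lz D v ![1, 3, 2, 4, 5, 6] ![2, 2, 2, 4, 5, 6] + Lz D v ![2, 2, 2, 4, 5, 6]
        ![3, 2, 1, 4, 5, 6] - Lz D v ![2, 3, 1, 4, 5, 6] ![3, 2, 1, 4, 5, 6] -
        Lz D v ![1, 3, 2, 4, 5, 6] ![2, 3, 1, 4, 5, 6] :=
    Q_Lz D v (by decide) (by decide) (by decide)
  have e22 : Q D v ![1, 2, 4, 3, 5, 6] ![1, -1, 0, 0, 0, 0] ![0, 1, 0, -1, 0, 0] =
      Q D (D.s 2 v) ![1, 2, 3, 4, 5, 6] ![1, -1, 0, 0, 0, 0] ![0, 1, -1, 0, 0, 0] := by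
    rw [Q_step D 2 v (a := ![1, 2, 4, 3, 5, 6]) (u := ![1, -1, 0, 0, 0, 0]) (w := ![0, 1, 0, -1, 0, 0])
      (a' := ![1, 2, 3, 4, 5, 6]) (u' := ![1, -1, 0, 0, 0, 0]) (w' := ![0, 1, -1, 0, 0, 0]) (by decide)]
  have g22 : Q D v ![1, 2, 4, 3, 5, 6] ![1, -1, 0, 0, 0, 0] ![0, 1, 0, -1, 0, 0] =
      Lz D v ![1, 2, 4, 3, 5, 6] ![2, 1, 4, 3, 5, 6] + Lz D v ![2, 1, 4, 3, 5, 6]
        ![2, 2, 4, 2, 5, 6] - Lz D v ![1, 3, 4, 2, 5, 6] ![2, 2, 4, 2, 5, 6] -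
        Lz D v ![1, 2, 4, 3, 5, 6] ![1, 3, 4, 2, 5, 6] :=
    Q_Lz D v (by decide) (by decide) (by decide)
  have e23 : Q D v ![2, 1, 4, 3, 5, 6] ![1, 0, 0, -1, 0, 0] ![0, 1, 0, -1, 0, 0] =
      Q D (D.s 2 v) ![2, 1, 3, 4, 5, 6] ![1, 0, -1, 0, 0, 0] ![0, 1, -1, 0, 0, 0] := by
    rw [Q_step D 2 v (a := ![2, 1, 4, 3, 5, 6]) (u := ![1, 0, 0, -1, 0, 0]) (w := ![0, 1, 0, -1, 0, 0])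
      (a' := ![2, 1, 3, 4, 5, 6]) (u' := ![1, 0, -1, 0, 0, 0]) (w' := ![0, 1, -1, 0, 0, 0]) (by decide)]
  have g23 : Q D v ![2, 1, 4, 3, 5, 6] ![1, 0, 0, -1, 0, 0] ![0, 1, 0, -1, 0, 0] =
      Lz D v ![2, 1, 4, 3, 5, 6] ![3, 1, 4, 2, 5, 6] + Lz D v ![3, 1, 4, 2, 5, 6]
        ![3, 2, 4, 1, 5, 6] - Lz D v ![2, 2, 4, 2, 5, 6] ![3, 2, 4, 1, 5, 6] -
        Lz D v ![2, 1, 4, 3, 5, 6] ![2, 2, 4, 2, 5, 6] :=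
    Q_Lz D v (by decide) (by decide) (by decide)
  have e24 : Q D v ![1, 3, 4, 2, 5, 6] ![1, -1, 0, 0, 0, 0] ![1, 0, 0, -1, 0, 0] =
      Q D (D.s 2 v) ![1, 3, 2, 4, 5, 6] ![1, -1, 0, 0, 0, 0] ![1, 0, -1, 0, 0, 0] := by
    rw [Q_step D 2 v (a := ![1, 3, 4, 2, 5, 6]) (u := ![1, -1, 0, 0, 0, 0]) (w := ![1, 0, 0, -1, 0, 0])
      (a' := ![1, 3, 2, 4, 5, 6]) (u' := ![1, -1, 0, 0, 0, 0]) (w' := ![1, 0, -1, 0, 0, 0]) (by decide)]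
  have g24 : Q D v ![1, 3, 4, 2, 5, 6] ![1, -1, 0, 0, 0, 0] ![1, 0, 0, -1, 0, 0] =
      Lz D v ![1, 3, 4, 2, 5, 6] ![2, 2, 4, 2, 5, 6] + Lz D v ![2, 2, 4, 2, 5, 6]
        ![3, 2, 4, 1, 5, 6] - Lz D v ![2, 3, 4, 1, 5, 6] ![3, 2, 4, 1, 5, 6] -
        Lz D v ![1, 3, 4, 2, 5, 6] ![2, 3, 4, 1, 5, 6] :=
    Q_Lz D v (by decide) (by decide) (by decide)
  have e25 : Q D v ![1, 4, 2, 3, 5, 6] ![1, 0, -1, 0, 0, 0] ![0, 0, 1, -1, 0, 0] =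
      Q D (D.s 2 (D.s 1 v)) ![1, 2, 3, 4, 5, 6] ![1, -1, 0, 0, 0, 0] ![0, 1, -1, 0, 0, 0] := by
    rw [Q_step D 1 v (a := ![1, 4, 2, 3, 5, 6]) (u := ![1, 0, -1, 0, 0, 0]) (w := ![0, 0, 1, -1, 0, 0])
      (a' := ![1, 2, 4, 3, 5, 6]) (u' := ![1, -1, 0, 0, 0, 0]) (w' := ![0, 1, 0, -1, 0, 0]) (by decide)]
    rw [Q_step D 2 (D.s 1 v) (a := ![1, 2, 4, 3, 5, 6]) (u := ![1, -1, 0, 0, 0, 0]) (w := ![0, 1, 0, -1, 0, 0])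
      (a' := ![1, 2, 3, 4, 5, 6]) (u' := ![1, -1, 0, 0, 0, 0]) (w' := ![0, 1, -1, 0, 0, 0]) (by decide)]
  have g25 : Q D v ![1, 4, 2, 3, 5, 6] ![1, 0, -1, 0, 0, 0] ![0, 0, 1, -1, 0, 0] =
      Lz D v ![1, 4, 2, 3, 5, 6] ![2, 4, 1, 3, 5, 6] + Lz D v ![2, 4, 1, 3, 5, 6]
        ![2, 4, 2, 2, 5, 6] - Lz D v ![1, 4, 3, 2, 5, 6] ![2, 4, 2, 2, 5, 6] -
        Lz D v ![1, 4, 2, 3, 5, 6] ![1, 4, 3, 2, 5, 6] :=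
    Q_Lz D v (by decide) (by decide) (by decide)
  have e26 : Q D v ![2, 4, 1, 3, 5, 6] ![1, 0, 0, -1, 0, 0] ![0, 0, 1, -1, 0, 0] =
      Q D (D.s 2 (D.s 1 v)) ![2, 1, 3, 4, 5, 6] ![1, 0, -1, 0, 0, 0] ![0, 1, -1, 0, 0, 0] := by
    rw [Q_step D 1 v (a := ![2, 4, 1, 3, 5, 6]) (u := ![1, 0, 0, -1, 0, 0]) (w := ![0, 0, 1, -1, 0, 0])
      (a' := ![2, 1, 4, 3, 5, 6]) (u' := ![1, 0, 0, -1, 0, 0]) (w' := ![0, 1, 0, -1, 0, 0]) (by decide)]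
    rw [Q_step D 2 (D.s 1 v) (a := ![2, 1, 4, 3, 5, 6]) (u := ![1, 0, 0, -1, 0, 0]) (w := ![0, 1, 0, -1, 0, 0])
      (a' := ![2, 1, 3, 4, 5, 6]) (u' := ![1, 0, -1, 0, 0, 0]) (w' := ![0, 1, -1, 0, 0, 0]) (by decide)]
  have g26 : Q D v ![2, 4, 1, 3, 5, 6] ![1, 0, 0, -1, 0, 0] ![0, 0, 1, -1, 0, 0] =
      Lz D v ![2, 4, 1, 3, 5, 6] ![3, 4, 1, 2, 5, 6] + Lz D v ![3, 4, 1, 2, 5, 6]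
        ![3, 4, 2, 1, 5, 6] - Lz D v ![2, 4, 2, 2, 5, 6] ![3, 4, 2, 1, 5, 6] -
        Lz D v ![2, 4, 1, 3, 5, 6] ![2, 4, 2, 2, 5, 6] :=
    Q_Lz D v (by decide) (by decide) (by decide)
  have e27 : Q D v ![1, 4, 3, 2, 5, 6] ![1, 0, -1, 0, 0, 0] ![1, 0, 0, -1, 0, 0] =
      Q D (D.s 2 (D.s 1 v)) ![1, 3, 2, 4, 5, 6] ![1, -1, 0, 0, 0, 0] ![1, 0, -1, 0, 0, 0] := by
    rw [Q_step D 1 v (a := ![1, 4, 3, 2, 5, 6]) (u := ![1, 0, -1, 0, 0, 0]) (w := ![1, 0, 0, -1, 0, 0])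
      (a' := ![1, 3, 4, 2, 5, 6]) (u' := ![1, -1, 0, 0, 0, 0]) (w' := ![1, 0, 0, -1, 0, 0]) (by decide)]
    rw [Q_step D 2 (D.s 1 v) (a := ![1, 3, 4, 2, 5, 6]) (u := ![1, -1, 0, 0, 0, 0]) (w := ![1, 0, 0, -1, 0, 0])
      (a' := ![1, 3, 2, 4, 5, 6]) (u' := ![1, -1, 0, 0, 0, 0]) (w' := ![1, 0, -1, 0, 0, 0]) (by decide)]
  have g27 : Q D v ![1, 4, 3, 2, 5, 6] ![1, 0, -1, 0, 0, 0] ![1, 0, 0, -1, 0, 0] =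
      Lz D v ![1, 4, 3, 2, 5, 6] ![2, 4, 2, 2, 5, 6] + Lz D v ![2, 4, 2, 2, 5, 6]
        ![3, 4, 2, 1, 5, 6] - Lz D v ![2, 4, 3, 1, 5, 6] ![3, 4, 2, 1, 5, 6] -
        Lz D v ![1, 4, 3, 2, 5, 6] ![2, 4, 3, 1, 5, 6] :=
    Q_Lz D v (by decide) (by decide) (by decide)
  have e28 : Q D v ![4, 1, 2, 3, 5, 6] ![0, 1, -1, 0, 0, 0] ![0, 0, 1, -1, 0, 0] =
      Q D (D.s 2 (D.s 1 (D.s 0 v))) ![1, 2, 3, 4, 5, 6] ![1, -1, 0, 0, 0, 0] ![0, 1, -1, 0, 0, 0] := by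
    rw [Q_step D 0 v (a := ![4, 1, 2, 3, 5, 6]) (u := ![0, 1, -1, 0, 0, 0]) (w := ![0, 0, 1, -1, 0, 0])
      (a' := ![1, 4, 2, 3, 5, 6]) (u' := ![1, 0, -1, 0, 0, 0]) (w' := ![0, 0, 1, -1, 0, 0]) (by decide)]
    rw [Q_step D 1 (D.s 0 v) (a := ![1, 4, 2, 3, 5, 6]) (u := ![1, 0, -1, 0, 0, 0]) (w := ![0, 0, 1, -1, 0, 0])
      (a' := ![1, 2, 4, 3, 5, 6]) (u' := ![1, -1, 0, 0, 0, 0]) (w' := ![0, 1, 0, -1, 0, 0]) (by decide)]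
    rw [Q_step D 2 (D.s 1 (D.s 0 v)) (a := ![1, 2, 4, 3, 5, 6]) (u := ![1, -1, 0, 0, 0, 0]) (w := ![0, 1, 0, -1, 0, 0])
      (a' := ![1, 2, 3, 4, 5, 6]) (u' := ![1, -1, 0, 0, 0, 0]) (w' := ![0, 1, -1, 0, 0, 0]) (by decide)]
  have g28 : Q D v ![4, 1, 2, 3, 5, 6] ![0, 1, -1, 0, 0, 0] ![0, 0, 1, -1, 0, 0] =
      Lz D v ![4, 1, 2, 3, 5, 6] ![4, 2, 1, 3, 5, 6] + Lz D v ![4, 2, 1, 3, 5, 6]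
        ![4, 2, 2, 2, 5, 6] - Lz D v ![4, 1, 3, 2, 5, 6] ![4, 2, 2, 2, 5, 6] -
        Lz D v ![4, 1, 2, 3, 5, 6] ![4, 1, 3, 2, 5, 6] :=
    Q_Lz D v (by decide) (by decide) (by decide)
  have e29 : Q D v ![4, 2, 1, 3, 5, 6] ![0, 1, 0, -1, 0, 0] ![0, 0, 1, -1, 0, 0] =
      Q D (D.s 2 (D.s 1 (D.s 0 v))) ![2, 1, 3, 4, 5, 6] ![1, 0, -1, 0, 0, 0] ![0, 1, -1, 0, 0, 0] := by
    rw [Q_step D 0 v (a := ![4, 2, 1, 3, 5, 6]) (u := ![0, 1, 0, -1, 0, 0]) (w := ![0, 0, 1, -1, 0, 0])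
      (a' := ![2, 4, 1, 3, 5, 6]) (u' := ![1, 0, 0, -1, 0, 0]) (w' := ![0, 0, 1, -1, 0, 0]) (by decide)]
    rw [Q_step D 1 (D.s 0 v) (a := ![2, 4, 1, 3, 5, 6]) (u := ![1, 0, 0, -1, 0, 0]) (w := ![0, 0, 1, -1, 0, 0])
      (a' := ![2, 1, 4, 3, 5, 6]) (u' := ![1, 0, 0, -1, 0, 0]) (w' := ![0, 1, 0, -1, 0, 0]) (by decide)]
    rw [Q_step D 2 (D.s 1 (D.s 0 v)) (a := ![2, 1, 4, 3, 5, 6]) (u := ![1, 0, 0, -1, 0, 0]) (w := ![0, 1, 0, -1, 0, 0])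
      (a' := ![2, 1, 3, 4, 5, 6]) (u' := ![1, 0, -1, 0, 0, 0]) (w' := ![0, 1, -1, 0, 0, 0]) (by decide)]
  have g29 : Q D v ![4, 2, 1, 3, 5, 6] ![0, 1, 0, -1, 0, 0] ![0, 0, 1, -1, 0, 0] =
      Lz D v ![4, 2, 1, 3, 5, 6] ![4, 3, 1, 2, 5, 6] + Lz D v ![4, 3, 1, 2, 5, 6]
        ![4, 3, 2, 1, 5, 6] - Lz D v ![4, 2, 2, 2, 5, 6] ![4, 3, 2, 1, 5, 6] -
        Lz D v ![4, 2, 1, 3, 5, 6] ![4, 2, 2, 2, 5, 6] :=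
    Q_Lz D v (by decide) (by decide) (by decide)
  have e30 : Q D v ![4, 1, 3, 2, 5, 6] ![0, 1, -1, 0, 0, 0] ![0, 1, 0, -1, 0, 0] =
      Q D (D.s 2 (D.s 1 (D.s 0 v))) ![1, 3, 2, 4, 5, 6] ![1, -1, 0, 0, 0, 0] ![1, 0, -1, 0, 0, 0] := by
    rw [Q_step D 0 v (a := ![4, 1, 3, 2, 5, 6]) (u := ![0, 1, -1, 0, 0, 0]) (w := ![0, 1, 0, -1, 0, 0])
      (a' := ![1, 4, 3, 2, 5, 6]) (u' := ![1, 0, -1, 0, 0, 0]) (w' := ![1, 0, 0, -1, 0, 0]) (by decide)]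
    rw [Q_step D 1 (D.s 0 v) (a := ![1, 4, 3, 2, 5, 6]) (u := ![1, 0, -1, 0, 0, 0]) (w := ![1, 0, 0, -1, 0, 0])
      (a' := ![1, 3, 4, 2, 5, 6]) (u' := ![1, -1, 0, 0, 0, 0]) (w' := ![1, 0, 0, -1, 0, 0]) (by decide)]
    rw [Q_step D 2 (D.s 1 (D.s 0 v)) (a := ![1, 3, 4, 2, 5, 6]) (u := ![1, -1, 0, 0, 0, 0]) (w := ![1, 0, 0, -1, 0, 0])
      (a' := ![1, 3, 2, 4, 5, 6]) (u' := ![1, -1, 0, 0, 0, 0]) (w' := ![1, 0, -1, 0, 0, 0]) (by decide)]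
  have g30 : Q D v ![4, 1, 3, 2, 5, 6] ![0, 1, -1, 0, 0, 0] ![0, 1, 0, -1, 0, 0] =
      Lz D v ![4, 1, 3, 2, 5, 6] ![4, 2, 2, 2, 5, 6] + Lz D v ![4, 2, 2, 2, 5, 6]
        ![4, 3, 2, 1, 5, 6] - Lz D v ![4, 2, 3, 1, 5, 6] ![4, 3, 2, 1, 5, 6] -
        Lz D v ![4, 1, 3, 2, 5, 6] ![4, 2, 3, 1, 5, 6] :=
    Q_Lz D v (by decide) (by decide) (by decide)
  rw [g1, g2, g3, ← e4, g4, ← e5, g5, ← e6,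
    g6, ← e7, g7, ← e8, g8, ← e9, g9, ← e10,
    g10, ← e11, g11, ← e12, g12, g13, ← e14, g14,
    ← e15, g15, ← e16, g16, ← e17, g17, ← e18, g18,
    g19, g20, g21, ← e22, g22, ← e23, g23, ← e24,
    g24, ← e25, g25, ← e26, g26, ← e27, g27, ← e28,
    g28, ← e29, g29, ← e30, g30]
  abel

/-- the relation of the three-cell with generators 2, 3, 4 -/
theorem rel_234 (D : Loc2 V F) (v : V) :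
    -phiH D 3 4 v + phiH D 3 4 (D.s 2 v) - phiH D 3 4 (D.s 2 (D.s 3 v))
      + phiH D 3 4 (D.s 2 (D.s 3 (D.s 4 v))) + phiT D 2 4 v - phiT D 2 4 (D.s 3 v)
      + phiT D 2 4 (D.s 3 (D.s 4 v)) + phiT D 2 4 (D.s 3 (D.s 2 v))
      - phiT D 2 4 (D.s 3 (D.s 4 (D.s 2 v))) + phiT D 2 4 (D.s 3 (D.s 4 (D.s 2 (D.s 3 v))))
      - phiH D 2 3 v + phiH D 2 3 (D.s 4 v) - phiH D 2 3 (D.s 4 (D.s 3 v))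
      + phiH D 2 3 (D.s 4 (D.s 3 (D.s 2 v))) = 0 := by
  simp only [phiH_23, phiH_34, phiT_24]
  have g1 : Q D v ![1, 2, 3, 4, 5, 6] ![0, 0, 0, 1, -1, 0] ![0, 0, 0, 0, 1, -1] =
      Lz D v ![1, 2, 3, 4, 5, 6] ![1, 2, 3, 5, 4, 6] + Lz D v ![1, 2, 3, 5, 4, 6]
        ![1, 2, 3, 5, 5, 5] - Lz D v ![1, 2, 3, 4, 6, 5] ![1, 2, 3, 5, 5, 5] -
        Lz D v ![1, 2, 3, 4, 5, 6] ![1, 2, 3, 4, 6, 5] :=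
    Q_Lz D v (by decide) (by decide) (by decide)
  have g2 : Q D v ![1, 2, 3, 5, 4, 6] ![0, 0, 0, 1, 0, -1] ![0, 0, 0, 0, 1, -1] =
      Lz D v ![1, 2, 3, 5, 4, 6] ![1, 2, 3, 6, 4, 5] + Lz D v ![1, 2, 3, 6, 4, 5]
        ![1, 2, 3, 6, 5, 4] - Lz D v ![1, 2, 3, 5, 5, 5] ![1, 2, 3, 6, 5, 4] -
        Lz D v ![1, 2, 3, 5, 4, 6] ![1, 2, 3, 5, 5, 5] :=
    Q_Lz D v (by decide) (by decide) (by decide)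
  have g3 : Q D v ![1, 2, 3, 4, 6, 5] ![0, 0, 0, 1, -1, 0] ![0, 0, 0, 1, 0, -1] =
      Lz D v ![1, 2, 3, 4, 6, 5] ![1, 2, 3, 5, 5, 5] + Lz D v ![1, 2, 3, 5, 5, 5]
        ![1, 2, 3, 6, 5, 4] - Lz D v ![1, 2, 3, 5, 6, 4] ![1, 2, 3, 6, 5, 4] -
        Lz D v ![1, 2, 3, 4, 6, 5] ![1, 2, 3, 5, 6, 4] :=
    Q_Lz D v (by decide) (by decide) (by decide)
  have e4 : Q D v ![1, 2, 4, 3, 5, 6] ![0, 0, 1, 0, -1, 0] ![0, 0, 0, 0, 1, -1] =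
      Q D (D.s 2 v) ![1, 2, 3, 4, 5, 6] ![0, 0, 0, 1, -1, 0] ![0, 0, 0, 0, 1, -1] := by
    rw [Q_step D 2 v (a := ![1, 2, 4, 3, 5, 6]) (u := ![0, 0, 1, 0, -1, 0]) (w := ![0, 0, 0, 0, 1, -1])
      (a' := ![1, 2, 3, 4, 5, 6]) (u' := ![0, 0, 0, 1, -1, 0]) (w' := ![0, 0, 0, 0, 1, -1]) (by decide)]
  have g4 : Q D v ![1, 2, 4, 3, 5, 6] ![0, 0, 1, 0, -1, 0] ![0, 0, 0, 0, 1, -1] =
      Lz D v ![1, 2, 4, 3, 5, 6] ![1, 2, 5, 3, 4, 6] + Lz D v ![1, 2, 5, 3, 4, 6]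
        ![1, 2, 5, 3, 5, 5] - Lz D v ![1, 2, 4, 3, 6, 5] ![1, 2, 5, 3, 5, 5] -
        Lz D v ![1, 2, 4, 3, 5, 6] ![1, 2, 4, 3, 6, 5] :=
    Q_Lz D v (by decide) (by decide) (by decide)
  have e5 : Q D v ![1, 2, 5, 3, 4, 6] ![0, 0, 1, 0, 0, -1] ![0, 0, 0, 0, 1, -1] =
      Q D (D.s 2 v) ![1, 2, 3, 5, 4, 6] ![0, 0, 0, 1, 0, -1] ![0, 0, 0, 0, 1, -1] := by
    rw [Q_step D 2 v (a := ![1, 2, 5, 3, 4, 6]) (u := ![0, 0, 1, 0, 0, -1]) (w := ![0, 0, 0, 0, 1, -1])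
      (a' := ![1, 2, 3, 5, 4, 6]) (u' := ![0, 0, 0, 1, 0, -1]) (w' := ![0, 0, 0, 0, 1, -1]) (by decide)]
  have g5 : Q D v ![1, 2, 5, 3, 4, 6] ![0, 0, 1, 0, 0, -1] ![0, 0, 0, 0, 1, -1] =
      Lz D v ![1, 2, 5, 3, 4, 6] ![1, 2, 6, 3, 4, 5] + Lz D v ![1, 2, 6, 3, 4, 5]
        ![1, 2, 6, 3, 5, 4] - Lz D v ![1, 2, 5, 3, 5, 5] ![1, 2, 6, 3, 5, 4] -
        Lz D v ![1, 2, 5, 3, 4, 6] ![1, 2, 5, 3, 5, 5] :=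
    Q_Lz D v (by decide) (by decide) (by decide)
  have e6 : Q D v ![1, 2, 4, 3, 6, 5] ![0, 0, 1, 0, -1, 0] ![0, 0, 1, 0, 0, -1] =
      Q D (D.s 2 v) ![1, 2, 3, 4, 6, 5] ![0, 0, 0, 1, -1, 0] ![0, 0, 0, 1, 0, -1] := by
    rw [Q_step D 2 v (a := ![1, 2, 4, 3, 6, 5]) (u := ![0, 0, 1, 0, -1, 0]) (w := ![0, 0, 1, 0, 0, -1])
      (a' := ![1, 2, 3, 4, 6, 5]) (u' := ![0, 0, 0, 1, -1, 0]) (w' := ![0, 0, 0, 1, 0, -1]) (by decide)]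
  have g6 : Q D v ![1, 2, 4, 3, 6, 5] ![0, 0, 1, 0, -1, 0] ![0, 0, 1, 0, 0, -1] =
      Lz D v ![1, 2, 4, 3, 6, 5] ![1, 2, 5, 3, 5, 5] + Lz D v ![1, 2, 5, 3, 5, 5]
        ![1, 2, 6, 3, 5, 4] - Lz D v ![1, 2, 5, 3, 6, 4] ![1, 2, 6, 3, 5, 4] -
        Lz D v ![1, 2, 4, 3, 6, 5] ![1, 2, 5, 3, 6, 4] :=
    Q_Lz D v (by decide) (by decide) (by decide)
  have e7 : Q D v ![1, 2, 4, 5, 3, 6] ![0, 0, 1, -1, 0, 0] ![0, 0, 0, 1, 0, -1] =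
      Q D (D.s 2 (D.s 3 v)) ![1, 2, 3, 4, 5, 6] ![0, 0, 0, 1, -1, 0] ![0, 0, 0, 0, 1, -1] := by
    rw [Q_step D 3 v (a := ![1, 2, 4, 5, 3, 6]) (u := ![0, 0, 1, -1, 0, 0]) (w := ![0, 0, 0, 1, 0, -1])
      (a' := ![1, 2, 4, 3, 5, 6]) (u' := ![0, 0, 1, 0, -1, 0]) (w' := ![0, 0, 0, 0, 1, -1]) (by decide)]
    rw [Q_step D 2 (D.s 3 v) (a := ![1, 2, 4, 3, 5, 6]) (u := ![0, 0, 1, 0, -1, 0]) (w := ![0, 0, 0, 0, 1, -1])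
      (a' := ![1, 2, 3, 4, 5, 6]) (u' := ![0, 0, 0, 1, -1, 0]) (w' := ![0, 0, 0, 0, 1, -1]) (by decide)]
  have g7 : Q D v ![1, 2, 4, 5, 3, 6] ![0, 0, 1, -1, 0, 0] ![0, 0, 0, 1, 0, -1] =
      Lz D v ![1, 2, 4, 5, 3, 6] ![1, 2, 5, 4, 3, 6] + Lz D v ![1, 2, 5, 4, 3, 6]
        ![1, 2, 5, 5, 3, 5] - Lz D v ![1, 2, 4, 6, 3, 5] ![1, 2, 5, 5, 3, 5] -
        Lz D v ![1, 2, 4, 5, 3, 6] ![1, 2, 4, 6, 3, 5] :=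
    Q_Lz D v (by decide) (by decide) (by decide)
  have e8 : Q D v ![1, 2, 5, 4, 3, 6] ![0, 0, 1, 0, 0, -1] ![0, 0, 0, 1, 0, -1] =
      Q D (D.s 2 (D.s 3 v)) ![1, 2, 3, 5, 4, 6] ![0, 0, 0, 1, 0, -1] ![0, 0, 0, 0, 1, -1] := by
    rw [Q_step D 3 v (a := ![1, 2, 5, 4, 3, 6]) (u := ![0, 0, 1, 0, 0, -1]) (w := ![0, 0, 0, 1, 0, -1])
      (a' := ![1, 2, 5, 3, 4, 6]) (u' := ![0, 0, 1, 0, 0, -1]) (w' := ![0, 0, 0, 0, 1, -1]) (by decide)]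
    rw [Q_step D 2 (D.s 3 v) (a := ![1, 2, 5, 3, 4, 6]) (u := ![0, 0, 1, 0, 0, -1]) (w := ![0, 0, 0, 0, 1, -1])
      (a' := ![1, 2, 3, 5, 4, 6]) (u' := ![0, 0, 0, 1, 0, -1]) (w' := ![0, 0, 0, 0, 1, -1]) (by decide)]
  have g8 : Q D v ![1, 2, 5, 4, 3, 6] ![0, 0, 1, 0, 0, -1] ![0, 0, 0, 1, 0, -1] =
      Lz D v ![1, 2, 5, 4, 3, 6] ![1, 2, 6, 4, 3, 5] + Lz D v ![1, 2, 6, 4, 3, 5]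
        ![1, 2, 6, 5, 3, 4] - Lz D v ![1, 2, 5, 5, 3, 5] ![1, 2, 6, 5, 3, 4] -
        Lz D v ![1, 2, 5, 4, 3, 6] ![1, 2, 5, 5, 3, 5] :=
    Q_Lz D v (by decide) (by decide) (by decide)
  have e9 : Q D v ![1, 2, 4, 6, 3, 5] ![0, 0, 1, -1, 0, 0] ![0, 0, 1, 0, 0, -1] =
      Q D (D.s 2 (D.s 3 v)) ![1, 2, 3, 4, 6, 5] ![0, 0, 0, 1, -1, 0] ![0, 0, 0, 1, 0, -1] := by
    rw [Q_step D 3 v (a := ![1, 2, 4, 6, 3, 5]) (u := ![0, 0, 1, -1, 0, 0]) (w := ![0, 0, 1, 0, 0, -1])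
      (a' := ![1, 2, 4, 3, 6, 5]) (u' := ![0, 0, 1, 0, -1, 0]) (w' := ![0, 0, 1, 0, 0, -1]) (by decide)]
    rw [Q_step D 2 (D.s 3 v) (a := ![1, 2, 4, 3, 6, 5]) (u := ![0, 0, 1, 0, -1, 0]) (w := ![0, 0, 1, 0, 0, -1])
      (a' := ![1, 2, 3, 4, 6, 5]) (u' := ![0, 0, 0, 1, -1, 0]) (w' := ![0, 0, 0, 1, 0, -1]) (by decide)]
  have g9 : Q D v ![1, 2, 4, 6, 3, 5] ![0, 0, 1, -1, 0, 0] ![0, 0, 1, 0, 0, -1] =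
      Lz D v ![1, 2, 4, 6, 3, 5] ![1, 2, 5, 5, 3, 5] + Lz D v ![1, 2, 5, 5, 3, 5]
        ![1, 2, 6, 5, 3, 4] - Lz D v ![1, 2, 5, 6, 3, 4] ![1, 2, 6, 5, 3, 4] -
        Lz D v ![1, 2, 4, 6, 3, 5] ![1, 2, 5, 6, 3, 4] :=
    Q_Lz D v (by decide) (by decide) (by decide)
  have e10 : Q D v ![1, 2, 4, 5, 6, 3] ![0, 0, 1, -1, 0, 0] ![0, 0, 0, 1, -1, 0] =
      Q D (D.s 2 (D.s 3 (D.s 4 v))) ![1, 2, 3, 4, 5, 6] ![0, 0, 0, 1, -1, 0] ![0, 0, 0, 0, 1, -1] := by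
    rw [Q_step D 4 v (a := ![1, 2, 4, 5, 6, 3]) (u := ![0, 0, 1, -1, 0, 0]) (w := ![0, 0, 0, 1, -1, 0])
      (a' := ![1, 2, 4, 5, 3, 6]) (u' := ![0, 0, 1, -1, 0, 0]) (w' := ![0, 0, 0, 1, 0, -1]) (by decide)]
    rw [Q_step D 3 (D.s 4 v) (a := ![1, 2, 4, 5, 3, 6]) (u := ![0, 0, 1, -1, 0, 0]) (w := ![0, 0, 0, 1, 0, -1])
      (a' := ![1, 2, 4, 3, 5, 6]) (u' := ![0, 0, 1, 0, -1, 0]) (w' := ![0, 0, 0, 0, 1, -1]) (by decide)]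
    rw [Q_step D 2 (D.s 3 (D.s 4 v)) (a := ![1, 2, 4, 3, 5, 6]) (u := ![0, 0, 1, 0, -1, 0]) (w := ![0, 0, 0, 0, 1, -1])
      (a' := ![1, 2, 3, 4, 5, 6]) (u' := ![0, 0, 0, 1, -1, 0]) (w' := ![0, 0, 0, 0, 1, -1]) (by decide)]
  have g10 : Q D v ![1, 2, 4, 5, 6, 3] ![0, 0, 1, -1, 0, 0] ![0, 0, 0, 1, -1, 0] =
      Lz D v ![1, 2, 4, 5, 6, 3] ![1, 2, 5, 4, 6, 3] + Lz D v ![1, 2, 5, 4, 6, 3]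
        ![1, 2, 5, 5, 5, 3] - Lz D v ![1, 2, 4, 6, 5, 3] ![1, 2, 5, 5, 5, 3] -
        Lz D v ![1, 2, 4, 5, 6, 3] ![1, 2, 4, 6, 5, 3] :=
    Q_Lz D v (by decide) (by decide) (by decide)
  have e11 : Q D v ![1, 2, 5, 4, 6, 3] ![0, 0, 1, 0, -1, 0] ![0, 0, 0, 1, -1, 0] =
      Q D (D.s 2 (D.s 3 (D.s 4 v))) ![1, 2, 3, 5, 4, 6] ![0, 0, 0, 1, 0, -1] ![0, 0, 0, 0, 1, -1] := by
    rw [Q_step D 4 v (a := ![1, 2, 5, 4, 6, 3]) (u := ![0, 0, 1, 0, -1, 0]) (w := ![0, 0, 0, 1, -1, 0])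
      (a' := ![1, 2, 5, 4, 3, 6]) (u' := ![0, 0, 1, 0, 0, -1]) (w' := ![0, 0, 0, 1, 0, -1]) (by decide)]
    rw [Q_step D 3 (D.s 4 v) (a := ![1, 2, 5, 4, 3, 6]) (u := ![0, 0, 1, 0, 0, -1]) (w := ![0, 0, 0, 1, 0, -1])
      (a' := ![1, 2, 5, 3, 4, 6]) (u' := ![0, 0, 1, 0, 0, -1]) (w' := ![0, 0, 0, 0, 1, -1]) (by decide)]
    rw [Q_step D 2 (D.s 3 (D.s 4 v)) (a := ![1, 2, 5, 3, 4, 6]) (u := ![0, 0, 1, 0, 0, -1]) (w := ![0, 0, 0, 0, 1, -1])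
      (a' := ![1, 2, 3, 5, 4, 6]) (u' := ![0, 0, 0, 1, 0, -1]) (w' := ![0, 0, 0, 0, 1, -1]) (by decide)]
  have g11 : Q D v ![1, 2, 5, 4, 6, 3] ![0, 0, 1, 0, -1, 0] ![0, 0, 0, 1, -1, 0] =
      Lz D v ![1, 2, 5, 4, 6, 3] ![1, 2, 6, 4, 5, 3] + Lz D v ![1, 2, 6, 4, 5, 3]
        ![1, 2, 6, 5, 4, 3] - Lz D v ![1, 2, 5, 5, 5, 3] ![1, 2, 6, 5, 4, 3] -
        Lz D v ![1, 2, 5, 4, 6, 3] ![1, 2, 5, 5, 5, 3] :=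
    Q_Lz D v (by decide) (by decide) (by decide)
  have e12 : Q D v ![1, 2, 4, 6, 5, 3] ![0, 0, 1, -1, 0, 0] ![0, 0, 1, 0, -1, 0] =
      Q D (D.s 2 (D.s 3 (D.s 4 v))) ![1, 2, 3, 4, 6, 5] ![0, 0, 0, 1, -1, 0] ![0, 0, 0, 1, 0, -1] := by
    rw [Q_step D 4 v (a := ![1, 2, 4, 6, 5, 3]) (u := ![0, 0, 1, -1, 0, 0]) (w := ![0, 0, 1, 0, -1, 0])
      (a' := ![1, 2, 4, 6, 3, 5]) (u' := ![0, 0, 1, -1, 0, 0]) (w' := ![0, 0, 1, 0, 0, -1]) (by decide)]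
    rw [Q_step D 3 (D.s 4 v) (a := ![1, 2, 4, 6, 3, 5]) (u := ![0, 0, 1, -1, 0, 0]) (w := ![0, 0, 1, 0, 0, -1])
      (a' := ![1, 2, 4, 3, 6, 5]) (u' := ![0, 0, 1, 0, -1, 0]) (w' := ![0, 0, 1, 0, 0, -1]) (by decide)]
    rw [Q_step D 2 (D.s 3 (D.s 4 v)) (a := ![1, 2, 4, 3, 6, 5]) (u := ![0, 0, 1, 0, -1, 0]) (w := ![0, 0, 1, 0, 0, -1])
      (a' := ![1, 2, 3, 4, 6, 5]) (u' := ![0, 0, 0, 1, -1, 0]) (w' := ![0, 0, 0, 1, 0, -1]) (by decide)]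
  have g12 : Q D v ![1, 2, 4, 6, 5, 3] ![0, 0, 1, -1, 0, 0] ![0, 0, 1, 0, -1, 0] =
      Lz D v ![1, 2, 4, 6, 5, 3] ![1, 2, 5, 5, 5, 3] + Lz D v ![1, 2, 5, 5, 5, 3]
        ![1, 2, 6, 5, 4, 3] - Lz D v ![1, 2, 5, 6, 4, 3] ![1, 2, 6, 5, 4, 3] -
        Lz D v ![1, 2, 4, 6, 5, 3] ![1, 2, 5, 6, 4, 3] :=
    Q_Lz D v (by decide) (by decide) (by decide)
  have g13 : Q D v ![1, 2, 3, 4, 5, 6] ![0, 0, 1, -1, 0, 0] ![0, 0, 0, 0, 1, -1] =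
      Lz D v ![1, 2, 3, 4, 5, 6] ![1, 2, 4, 3, 5, 6] + Lz D v ![1, 2, 4, 3, 5, 6]
        ![1, 2, 4, 3, 6, 5] - Lz D v ![1, 2, 3, 4, 6, 5] ![1, 2, 4, 3, 6, 5] -
        Lz D v ![1, 2, 3, 4, 5, 6] ![1, 2, 3, 4, 6, 5] :=
    Q_Lz D v (by decide) (by decide) (by decide)
  have e14 : Q D v ![1, 2, 3, 5, 4, 6] ![0, 0, 1, 0, -1, 0] ![0, 0, 0, 1, 0, -1] =
      Q D (D.s 3 v) ![1, 2, 3, 4, 5, 6] ![0, 0, 1, -1, 0, 0] ![0, 0, 0, 0, 1, -1] := by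
    rw [Q_step D 3 v (a := ![1, 2, 3, 5, 4, 6]) (u := ![0, 0, 1, 0, -1, 0]) (w := ![0, 0, 0, 1, 0, -1])
      (a' := ![1, 2, 3, 4, 5, 6]) (u' := ![0, 0, 1, -1, 0, 0]) (w' := ![0, 0, 0, 0, 1, -1]) (by decide)]
  have g14 : Q D v ![1, 2, 3, 5, 4, 6] ![0, 0, 1, 0, -1, 0] ![0, 0, 0, 1, 0, -1] =
      Lz D v ![1, 2, 3, 5, 4, 6] ![1, 2, 4, 5, 3, 6] + Lz D v ![1, 2, 4, 5, 3, 6]
        ![1, 2, 4, 6, 3, 5] - Lz D v ![1, 2, 3, 6, 4, 5] ![1, 2, 4, 6, 3, 5] -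
        Lz D v ![1, 2, 3, 5, 4, 6] ![1, 2, 3, 6, 4, 5] :=
    Q_Lz D v (by decide) (by decide) (by decide)
  have e15 : Q D v ![1, 2, 3, 5, 6, 4] ![0, 0, 1, 0, 0, -1] ![0, 0, 0, 1, -1, 0] =
      Q D (D.s 3 (D.s 4 v)) ![1, 2, 3, 4, 5, 6] ![0, 0, 1, -1, 0, 0] ![0, 0, 0, 0, 1, -1] := by
    rw [Q_step D 4 v (a := ![1, 2, 3, 5, 6, 4]) (u := ![0, 0, 1, 0, 0, -1]) (w := ![0, 0, 0, 1, -1, 0])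
      (a' := ![1, 2, 3, 5, 4, 6]) (u' := ![0, 0, 1, 0, -1, 0]) (w' := ![0, 0, 0, 1, 0, -1]) (by decide)]
    rw [Q_step D 3 (D.s 4 v) (a := ![1, 2, 3, 5, 4, 6]) (u := ![0, 0, 1, 0, -1, 0]) (w := ![0, 0, 0, 1, 0, -1])
      (a' := ![1, 2, 3, 4, 5, 6]) (u' := ![0, 0, 1, -1, 0, 0]) (w' := ![0, 0, 0, 0, 1, -1]) (by decide)]
  have g15 : Q D v ![1, 2, 3, 5, 6, 4] ![0, 0, 1, 0, 0, -1] ![0, 0, 0, 1, -1, 0] =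
      Lz D v ![1, 2, 3, 5, 6, 4] ![1, 2, 4, 5, 6, 3] + Lz D v ![1, 2, 4, 5, 6, 3]
        ![1, 2, 4, 6, 5, 3] - Lz D v ![1, 2, 3, 6, 5, 4] ![1, 2, 4, 6, 5, 3] -
        Lz D v ![1, 2, 3, 5, 6, 4] ![1, 2, 3, 6, 5, 4] :=
    Q_Lz D v (by decide) (by decide) (by decide)
  have e16 : Q D v ![1, 2, 5, 3, 4, 6] ![0, 0, 0, 1, -1, 0] ![0, 0, 1, 0, 0, -1] =
      Q D (D.s 3 (D.s 2 v)) ![1, 2, 3, 4, 5, 6] ![0, 0, 1, -1, 0, 0] ![0, 0, 0, 0, 1, -1] := by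
    rw [Q_step D 2 v (a := ![1, 2, 5, 3, 4, 6]) (u := ![0, 0, 0, 1, -1, 0]) (w := ![0, 0, 1, 0, 0, -1])
      (a' := ![1, 2, 3, 5, 4, 6]) (u' := ![0, 0, 1, 0, -1, 0]) (w' := ![0, 0, 0, 1, 0, -1]) (by decide)]
    rw [Q_step D 3 (D.s 2 v) (a := ![1, 2, 3, 5, 4, 6]) (u := ![0, 0, 1, 0, -1, 0]) (w := ![0, 0, 0, 1, 0, -1])
      (a' := ![1, 2, 3, 4, 5, 6]) (u' := ![0, 0, 1, -1, 0, 0]) (w' := ![0, 0, 0, 0, 1, -1]) (by decide)]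
  have g16 : Q D v ![1, 2, 5, 3, 4, 6] ![0, 0, 0, 1, -1, 0] ![0, 0, 1, 0, 0, -1] =
      Lz D v ![1, 2, 5, 3, 4, 6] ![1, 2, 5, 4, 3, 6] + Lz D v ![1, 2, 5, 4, 3, 6]
        ![1, 2, 6, 4, 3, 5] - Lz D v ![1, 2, 6, 3, 4, 5] ![1, 2, 6, 4, 3, 5] -
        Lz D v ![1, 2, 5, 3, 4, 6] ![1, 2, 6, 3, 4, 5] :=
    Q_Lz D v (by decide) (by decide) (by decide)
  have e17 : Q D v ![1, 2, 5, 3, 6, 4] ![0, 0, 0, 1, 0, -1] ![0, 0, 1, 0, -1, 0] =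
      Q D (D.s 3 (D.s 4 (D.s 2 v))) ![1, 2, 3, 4, 5, 6] ![0, 0, 1, -1, 0, 0] ![0, 0, 0, 0, 1, -1] := by
    rw [Q_step D 2 v (a := ![1, 2, 5, 3, 6, 4]) (u := ![0, 0, 0, 1, 0, -1]) (w := ![0, 0, 1, 0, -1, 0])
      (a' := ![1, 2, 3, 5, 6, 4]) (u' := ![0, 0, 1, 0, 0, -1]) (w' := ![0, 0, 0, 1, -1, 0]) (by decide)]
    rw [Q_step D 4 (D.s 2 v) (a := ![1, 2, 3, 5, 6, 4]) (u := ![0, 0, 1, 0, 0, -1]) (w := ![0, 0, 0, 1, -1, 0])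
      (a' := ![1, 2, 3, 5, 4, 6]) (u' := ![0, 0, 1, 0, -1, 0]) (w' := ![0, 0, 0, 1, 0, -1]) (by decide)]
    rw [Q_step D 3 (D.s 4 (D.s 2 v)) (a := ![1, 2, 3, 5, 4, 6]) (u := ![0, 0, 1, 0, -1, 0]) (w := ![0, 0, 0, 1, 0, -1])
      (a' := ![1, 2, 3, 4, 5, 6]) (u' := ![0, 0, 1, -1, 0, 0]) (w' := ![0, 0, 0, 0, 1, -1]) (by decide)]
  have g17 : Q D v ![1, 2, 5, 3, 6, 4] ![0, 0, 0, 1, 0, -1] ![0, 0, 1, 0, -1, 0] =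
      Lz D v ![1, 2, 5, 3, 6, 4] ![1, 2, 5, 4, 6, 3] + Lz D v ![1, 2, 5, 4, 6, 3]
        ![1, 2, 6, 4, 5, 3] - Lz D v ![1, 2, 6, 3, 5, 4] ![1, 2, 6, 4, 5, 3] -
        Lz D v ![1, 2, 5, 3, 6, 4] ![1, 2, 6, 3, 5, 4] :=
    Q_Lz D v (by decide) (by decide) (by decide)
  have e18 : Q D v ![1, 2, 5, 6, 3, 4] ![0, 0, 0, 0, 1, -1] ![0, 0, 1, -1, 0, 0] =
      Q D (D.s 3 (D.s 4 (D.s 2 (D.s 3 v)))) ![1, 2, 3, 4, 5, 6] ![0, 0, 1, -1, 0, 0] ![0, 0, 0, 0, 1, -1] := by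
    rw [Q_step D 3 v (a := ![1, 2, 5, 6, 3, 4]) (u := ![0, 0, 0, 0, 1, -1]) (w := ![0, 0, 1, -1, 0, 0])
      (a' := ![1, 2, 5, 3, 6, 4]) (u' := ![0, 0, 0, 1, 0, -1]) (w' := ![0, 0, 1, 0, -1, 0]) (by decide)]
    rw [Q_step D 2 (D.s 3 v) (a := ![1, 2, 5, 3, 6, 4]) (u := ![0, 0, 0, 1, 0, -1]) (w := ![0, 0, 1, 0, -1, 0])
      (a' := ![1, 2, 3, 5, 6, 4]) (u' := ![0, 0, 1, 0, 0, -1]) (w' := ![0, 0, 0, 1, -1, 0]) (by decide)]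
    rw [Q_step D 4 (D.s 2 (D.s 3 v)) (a := ![1, 2, 3, 5, 6, 4]) (u := ![0, 0, 1, 0, 0, -1]) (w := ![0, 0, 0, 1, -1, 0])
      (a' := ![1, 2, 3, 5, 4, 6]) (u' := ![0, 0, 1, 0, -1, 0]) (w' := ![0, 0, 0, 1, 0, -1]) (by decide)]
    rw [Q_step D 3 (D.s 4 (D.s 2 (D.s 3 v))) (a := ![1, 2, 3, 5, 4, 6]) (u := ![0, 0, 1, 0, -1, 0]) (w := ![0, 0, 0, 1, 0, -1])
      (a' := ![1, 2, 3, 4, 5, 6]) (u' := ![0, 0, 1, -1, 0, 0]) (w' := ![0, 0, 0, 0, 1, -1]) (by decide)]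
  have g18 : Q D v ![1, 2, 5, 6, 3, 4] ![0, 0, 0, 0, 1, -1] ![0, 0, 1, -1, 0, 0] =
      Lz D v ![1, 2, 5, 6, 3, 4] ![1, 2, 5, 6, 4, 3] + Lz D v ![1, 2, 5, 6, 4, 3]
        ![1, 2, 6, 5, 4, 3] - Lz D v ![1, 2, 6, 5, 3, 4] ![1, 2, 6, 5, 4, 3] -
        Lz D v ![1, 2, 5, 6, 3, 4] ![1, 2, 6, 5, 3, 4] :=
    Q_Lz D v (by decide) (by decide) (by decide)
  have g19 : Q D v ![1, 2, 3, 4, 5, 6] ![0, 0, 1, -1, 0, 0] ![0, 0, 0, 1, -1, 0] =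
      Lz D v ![1, 2, 3, 4, 5, 6] ![1, 2, 4, 3, 5, 6] + Lz D v ![1, 2, 4, 3, 5, 6]
        ![1, 2, 4, 4, 4, 6] - Lz D v ![1, 2, 3, 5, 4, 6] ![1, 2, 4, 4, 4, 6] -
        Lz D v ![1, 2, 3, 4, 5, 6] ![1, 2, 3, 5, 4, 6] :=
    Q_Lz D v (by decide) (by decide) (by decide)
  have g20 : Q D v ![1, 2, 4, 3, 5, 6] ![0, 0, 1, 0, -1, 0] ![0, 0, 0, 1, -1, 0] =
      Lz D v ![1, 2, 4, 3, 5, 6] ![1, 2, 5, 3, 4, 6] + Lz D v ![1, 2, 5, 3, 4, 6]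
        ![1, 2, 5, 4, 3, 6] - Lz D v ![1, 2, 4, 4, 4, 6] ![1, 2, 5, 4, 3, 6] -
        Lz D v ![1, 2, 4, 3, 5, 6] ![1, 2, 4, 4, 4, 6] :=
    Q_Lz D v (by decide) (by decide) (by decide)
  have g21 : Q D v ![1, 2, 3, 5, 4, 6] ![0, 0, 1, -1, 0, 0] ![0, 0, 1, 0, -1, 0] =
      Lz D v ![1, 2, 3, 5, 4, 6] ![1, 2, 4, 4, 4, 6] + Lz D v ![1, 2, 4, 4, 4, 6]
        ![1, 2, 5, 4, 3, 6] - Lz D v ![1, 2, 4, 5, 3, 6] ![1, 2, 5, 4, 3, 6] -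
        Lz D v ![1, 2, 3, 5, 4, 6] ![1, 2, 4, 5, 3, 6] :=
    Q_Lz D v (by decide) (by decide) (by decide)
  have e22 : Q D v ![1, 2, 3, 4, 6, 5] ![0, 0, 1, -1, 0, 0] ![0, 0, 0, 1, 0, -1] =
      Q D (D.s 4 v) ![1, 2, 3, 4, 5, 6] ![0, 0, 1, -1, 0, 0] ![0, 0, 0, 1, -1, 0] := by
    rw [Q_step D 4 v (a := ![1, 2, 3, 4, 6, 5]) (u := ![0, 0, 1, -1, 0, 0]) (w := ![0, 0, 0, 1, 0, -1])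
      (a' := ![1, 2, 3, 4, 5, 6]) (u' := ![0, 0, 1, -1, 0, 0]) (w' := ![0, 0, 0, 1, -1, 0]) (by decide)]
  have g22 : Q D v ![1, 2, 3, 4, 6, 5] ![0, 0, 1, -1, 0, 0] ![0, 0, 0, 1, 0, -1] =
      Lz D v ![1, 2, 3, 4, 6, 5] ![1, 2, 4, 3, 6, 5] + Lz D v ![1, 2, 4, 3, 6, 5]
        ![1, 2, 4, 4, 6, 4] - Lz D v ![1, 2, 3, 5, 6, 4] ![1, 2, 4, 4, 6, 4] -
        Lz D v ![1, 2, 3, 4, 6, 5] ![1, 2, 3, 5, 6, 4] :=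
    Q_Lz D v (by decide) (by decide) (by decide)
  have e23 : Q D v ![1, 2, 4, 3, 6, 5] ![0, 0, 1, 0, 0, -1] ![0, 0, 0, 1, 0, -1] =
      Q D (D.s 4 v) ![1, 2, 4, 3, 5, 6] ![0, 0, 1, 0, -1, 0] ![0, 0, 0, 1, -1, 0] := by
    rw [Q_step D 4 v (a := ![1, 2, 4, 3, 6, 5]) (u := ![0, 0, 1, 0, 0, -1]) (w := ![0, 0, 0, 1, 0, -1])
      (a' := ![1, 2, 4, 3, 5, 6]) (u' := ![0, 0, 1, 0, -1, 0]) (w' := ![0, 0, 0, 1, -1, 0]) (by decide)]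
  have g23 : Q D v ![1, 2, 4, 3, 6, 5] ![0, 0, 1, 0, 0, -1] ![0, 0, 0, 1, 0, -1] =
      Lz D v ![1, 2, 4, 3, 6, 5] ![1, 2, 5, 3, 6, 4] + Lz D v ![1, 2, 5, 3, 6, 4]
        ![1, 2, 5, 4, 6, 3] - Lz D v ![1, 2, 4, 4, 6, 4] ![1, 2, 5, 4, 6, 3] -
        Lz D v ![1, 2, 4, 3, 6, 5] ![1, 2, 4, 4, 6, 4] :=
    Q_Lz D v (by decide) (by decide) (by decide)
  have e24 : Q D v ![1, 2, 3, 5, 6, 4] ![0, 0, 1, -1, 0, 0] ![0, 0, 1, 0, 0, -1] =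
      Q D (D.s 4 v) ![1, 2, 3, 5, 4, 6] ![0, 0, 1, -1, 0, 0] ![0, 0, 1, 0, -1, 0] := by
    rw [Q_step D 4 v (a := ![1, 2, 3, 5, 6, 4]) (u := ![0, 0, 1, -1, 0, 0]) (w := ![0, 0, 1, 0, 0, -1])
      (a' := ![1, 2, 3, 5, 4, 6]) (u' := ![0, 0, 1, -1, 0, 0]) (w' := ![0, 0, 1, 0, -1, 0]) (by decide)]
  have g24 : Q D v ![1, 2, 3, 5, 6, 4] ![0, 0, 1, -1, 0, 0] ![0, 0, 1, 0, 0, -1] =
      Lz D v ![1, 2, 3, 5, 6, 4] ![1, 2, 4, 4, 6, 4] + Lz D v ![1, 2, 4, 4, 6, 4]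
        ![1, 2, 5, 4, 6, 3] - Lz D v ![1, 2, 4, 5, 6, 3] ![1, 2, 5, 4, 6, 3] -
        Lz D v ![1, 2, 3, 5, 6, 4] ![1, 2, 4, 5, 6, 3] :=
    Q_Lz D v (by decide) (by decide) (by decide)
  have e25 : Q D v ![1, 2, 3, 6, 4, 5] ![0, 0, 1, 0, -1, 0] ![0, 0, 0, 0, 1, -1] =
      Q D (D.s 4 (D.s 3 v)) ![1, 2, 3, 4, 5, 6] ![0, 0, 1, -1, 0, 0] ![0, 0, 0, 1, -1, 0] := by
    rw [Q_step D 3 v (a := ![1, 2, 3, 6, 4, 5]) (u := ![0, 0, 1, 0, -1, 0]) (w := ![0, 0, 0, 0, 1, -1])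
      (a' := ![1, 2, 3, 4, 6, 5]) (u' := ![0, 0, 1, -1, 0, 0]) (w' := ![0, 0, 0, 1, 0, -1]) (by decide)]
    rw [Q_step D 4 (D.s 3 v) (a := ![1, 2, 3, 4, 6, 5]) (u := ![0, 0, 1, -1, 0, 0]) (w := ![0, 0, 0, 1, 0, -1])
      (a' := ![1, 2, 3, 4, 5, 6]) (u' := ![0, 0, 1, -1, 0, 0]) (w' := ![0, 0, 0, 1, -1, 0]) (by decide)]
  have g25 : Q D v ![1, 2, 3, 6, 4, 5] ![0, 0, 1, 0, -1, 0] ![0, 0, 0, 0, 1, -1] =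
      Lz D v ![1, 2, 3, 6, 4, 5] ![1, 2, 4, 6, 3, 5] + Lz D v ![1, 2, 4, 6, 3, 5]
        ![1, 2, 4, 6, 4, 4] - Lz D v ![1, 2, 3, 6, 5, 4] ![1, 2, 4, 6, 4, 4] -
        Lz D v ![1, 2, 3, 6, 4, 5] ![1, 2, 3, 6, 5, 4] :=
    Q_Lz D v (by decide) (by decide) (by decide)
  have e26 : Q D v ![1, 2, 4, 6, 3, 5] ![0, 0, 1, 0, 0, -1] ![0, 0, 0, 0, 1, -1] =
      Q D (D.s 4 (D.s 3 v)) ![1, 2, 4, 3, 5, 6] ![0, 0, 1, 0, -1, 0] ![0, 0, 0, 1, -1, 0] := by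
    rw [Q_step D 3 v (a := ![1, 2, 4, 6, 3, 5]) (u := ![0, 0, 1, 0, 0, -1]) (w := ![0, 0, 0, 0, 1, -1])
      (a' := ![1, 2, 4, 3, 6, 5]) (u' := ![0, 0, 1, 0, 0, -1]) (w' := ![0, 0, 0, 1, 0, -1]) (by decide)]
    rw [Q_step D 4 (D.s 3 v) (a := ![1, 2, 4, 3, 6, 5]) (u := ![0, 0, 1, 0, 0, -1]) (w := ![0, 0, 0, 1, 0, -1])
      (a' := ![1, 2, 4, 3, 5, 6]) (u' := ![0, 0, 1, 0, -1, 0]) (w' := ![0, 0, 0, 1, -1, 0]) (by decide)]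
  have g26 : Q D v ![1, 2, 4, 6, 3, 5] ![0, 0, 1, 0, 0, -1] ![0, 0, 0, 0, 1, -1] =
      Lz D v ![1, 2, 4, 6, 3, 5] ![1, 2, 5, 6, 3, 4] + Lz D v ![1, 2, 5, 6, 3, 4]
        ![1, 2, 5, 6, 4, 3] - Lz D v ![1, 2, 4, 6, 4, 4] ![1, 2, 5, 6, 4, 3] -
        Lz D v ![1, 2, 4, 6, 3, 5] ![1, 2, 4, 6, 4, 4] :=
    Q_Lz D v (by decide) (by decide) (by decide)
  have e27 : Q D v ![1, 2, 3, 6, 5, 4] ![0, 0, 1, 0, -1, 0] ![0, 0, 1, 0, 0, -1] =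
      Q D (D.s 4 (D.s 3 v)) ![1, 2, 3, 5, 4, 6] ![0, 0, 1, -1, 0, 0] ![0, 0, 1, 0, -1, 0] := by
    rw [Q_step D 3 v (a := ![1, 2, 3, 6, 5, 4]) (u := ![0, 0, 1, 0, -1, 0]) (w := ![0, 0, 1, 0, 0, -1])
      (a' := ![1, 2, 3, 5, 6, 4]) (u' := ![0, 0, 1, -1, 0, 0]) (w' := ![0, 0, 1, 0, 0, -1]) (by decide)]
    rw [Q_step D 4 (D.s 3 v) (a := ![1, 2, 3, 5, 6, 4]) (u := ![0, 0, 1, -1, 0, 0]) (w := ![0, 0, 1, 0, 0, -1])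
      (a' := ![1, 2, 3, 5, 4, 6]) (u' := ![0, 0, 1, -1, 0, 0]) (w' := ![0, 0, 1, 0, -1, 0]) (by decide)]
  have g27 : Q D v ![1, 2, 3, 6, 5, 4] ![0, 0, 1, 0, -1, 0] ![0, 0, 1, 0, 0, -1] =
      Lz D v ![1, 2, 3, 6, 5, 4] ![1, 2, 4, 6, 4, 4] + Lz D v ![1, 2, 4, 6, 4, 4]
        ![1, 2, 5, 6, 4, 3] - Lz D v ![1, 2, 4, 6, 5, 3] ![1, 2, 5, 6, 4, 3] -
        Lz D v ![1, 2, 3, 6, 5, 4] ![1, 2, 4, 6, 5, 3] :=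
    Q_Lz D v (by decide) (by decide) (by decide)
  have e28 : Q D v ![1, 2, 6, 3, 4, 5] ![0, 0, 0, 1, -1, 0] ![0, 0, 0, 0, 1, -1] =
      Q D (D.s 4 (D.s 3 (D.s 2 v))) ![1, 2, 3, 4, 5, 6] ![0, 0, 1, -1, 0, 0] ![0, 0, 0, 1, -1, 0] := by
    rw [Q_step D 2 v (a := ![1, 2, 6, 3, 4, 5]) (u := ![0, 0, 0, 1, -1, 0]) (w := ![0, 0, 0, 0, 1, -1])
      (a' := ![1, 2, 3, 6, 4, 5]) (u' := ![0, 0, 1, 0, -1, 0]) (w' := ![0, 0, 0, 0, 1, -1]) (by decide)]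
    rw [Q_step D 3 (D.s 2 v) (a := ![1, 2, 3, 6, 4, 5]) (u := ![0, 0, 1, 0, -1, 0]) (w := ![0, 0, 0, 0, 1, -1])
      (a' := ![1, 2, 3, 4, 6, 5]) (u' := ![0, 0, 1, -1, 0, 0]) (w' := ![0, 0, 0, 1, 0, -1]) (by decide)]
    rw [Q_step D 4 (D.s 3 (D.s 2 v)) (a := ![1, 2, 3, 4, 6, 5]) (u := ![0, 0, 1, -1, 0, 0]) (w := ![0, 0, 0, 1, 0, -1])
      (a' := ![1, 2, 3, 4, 5, 6]) (u' := ![0, 0, 1, -1, 0, 0]) (w' := ![0, 0, 0, 1, -1, 0]) (by decide)]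
  have g28 : Q D v ![1, 2, 6, 3, 4, 5] ![0, 0, 0, 1, -1, 0] ![0, 0, 0, 0, 1, -1] =
      Lz D v ![1, 2, 6, 3, 4, 5] ![1, 2, 6, 4, 3, 5] + Lz D v ![1, 2, 6, 4, 3, 5]
        ![1, 2, 6, 4, 4, 4] - Lz D v ![1, 2, 6, 3, 5, 4] ![1, 2, 6, 4, 4, 4] -
        Lz D v ![1, 2, 6, 3, 4, 5] ![1, 2, 6, 3, 5, 4] :=
    Q_Lz D v (by decide) (by decide) (by decide)
  have e29 : Q D v ![1, 2, 6, 4, 3, 5] ![0, 0, 0, 1, 0, -1] ![0, 0, 0, 0, 1, -1] =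
      Q D (D.s 4 (D.s 3 (D.s 2 v))) ![1, 2, 4, 3, 5, 6] ![0, 0, 1, 0, -1, 0] ![0, 0, 0, 1, -1, 0] := by
    rw [Q_step D 2 v (a := ![1, 2, 6, 4, 3, 5]) (u := ![0, 0, 0, 1, 0, -1]) (w := ![0, 0, 0, 0, 1, -1])
      (a' := ![1, 2, 4, 6, 3, 5]) (u' := ![0, 0, 1, 0, 0, -1]) (w' := ![0, 0, 0, 0, 1, -1]) (by decide)]
    rw [Q_step D 3 (D.s 2 v) (a := ![1, 2, 4, 6, 3, 5]) (u := ![0, 0, 1, 0, 0, -1]) (w := ![0, 0, 0, 0, 1, -1])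
      (a' := ![1, 2, 4, 3, 6, 5]) (u' := ![0, 0, 1, 0, 0, -1]) (w' := ![0, 0, 0, 1, 0, -1]) (by decide)]
    rw [Q_step D 4 (D.s 3 (D.s 2 v)) (a := ![1, 2, 4, 3, 6, 5]) (u := ![0, 0, 1, 0, 0, -1]) (w := ![0, 0, 0, 1, 0, -1])
      (a' := ![1, 2, 4, 3, 5, 6]) (u' := ![0, 0, 1, 0, -1, 0]) (w' := ![0, 0, 0, 1, -1, 0]) (by decide)]
  have g29 : Q D v ![1, 2, 6, 4, 3, 5] ![0, 0, 0, 1, 0, -1] ![0, 0, 0, 0, 1, -1] =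
      Lz D v ![1, 2, 6, 4, 3, 5] ![1, 2, 6, 5, 3, 4] + Lz D v ![1, 2, 6, 5, 3, 4]
        ![1, 2, 6, 5, 4, 3] - Lz D v ![1, 2, 6, 4, 4, 4] ![1, 2, 6, 5, 4, 3] -
        Lz D v ![1, 2, 6, 4, 3, 5] ![1, 2, 6, 4, 4, 4] :=
    Q_Lz D v (by decide) (by decide) (by decide)
  have e30 : Q D v ![1, 2, 6, 3, 5, 4] ![0, 0, 0, 1, -1, 0] ![0, 0, 0, 1, 0, -1] =
      Q D (D.s 4 (D.s 3 (D.s 2 v))) ![1, 2, 3, 5, 4, 6] ![0, 0, 1, -1, 0, 0] ![0, 0, 1, 0, -1, 0] := by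
    rw [Q_step D 2 v (a := ![1, 2, 6, 3, 5, 4]) (u := ![0, 0, 0, 1, -1, 0]) (w := ![0, 0, 0, 1, 0, -1])
      (a' := ![1, 2, 3, 6, 5, 4]) (u' := ![0, 0, 1, 0, -1, 0]) (w' := ![0, 0, 1, 0, 0, -1]) (by decide)]
    rw [Q_step D 3 (D.s 2 v) (a := ![1, 2, 3, 6, 5, 4]) (u := ![0, 0, 1, 0, -1, 0]) (w := ![0, 0, 1, 0, 0, -1])
      (a' := ![1, 2, 3, 5, 6, 4]) (u' := ![0, 0, 1, -1, 0, 0]) (w' := ![0, 0, 1, 0, 0, -1]) (by decide)]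
    rw [Q_step D 4 (D.s 3 (D.s 2 v)) (a := ![1, 2, 3, 5, 6, 4]) (u := ![0, 0, 1, -1, 0, 0]) (w := ![0, 0, 1, 0, 0, -1])
      (a' := ![1, 2, 3, 5, 4, 6]) (u' := ![0, 0, 1, -1, 0, 0]) (w' := ![0, 0, 1, 0, -1, 0]) (by decide)]
  have g30 : Q D v ![1, 2, 6, 3, 5, 4] ![0, 0, 0, 1, -1, 0] ![0, 0, 0, 1, 0, -1] =
      Lz D v ![1, 2, 6, 3, 5, 4] ![1, 2, 6, 4, 4, 4] + Lz D v ![1, 2, 6, 4, 4, 4]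
        ![1, 2, 6, 5, 4, 3] - Lz D v ![1, 2, 6, 4, 5, 3] ![1, 2, 6, 5, 4, 3] -
        Lz D v ![1, 2, 6, 3, 5, 4] ![1, 2, 6, 4, 5, 3] :=
    Q_Lz D v (by decide) (by decide) (by decide)
  rw [g1, g2, g3, ← e4, g4, ← e5, g5, ← e6,
    g6, ← e7, g7, ← e8, g8, ← e9, g9, ← e10,
    g10, ← e11, g11, ← e12, g12, g13, ← e14, g14,
    ← e15, g15, ← e16, g16, ← e17, g17, ← e18, g18,
    g19, g20, g21, ← e22, g22, ← e23, g23, ← e24,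
    g24, ← e25, g25, ← e26, g26, ← e27, g27, ← e28,
    g28, ← e29, g29, ← e30, g30]
  abel

/-- the relation of the three-cell with generators 0, 3, 4 -/
theorem rel_034 (D : Loc2 V F) (v : V) :
    -phiH D 3 4 v + phiH D 3 4 (D.s 0 v) + phiT D 0 4 v - phiT D 0 4 (D.s 3 v)
      + phiT D 0 4 (D.s 3 (D.s 4 v)) - phiT D 0 3 v + phiT D 0 3 (D.s 4 v)
      - phiT D 0 3 (D.s 4 (D.s 3 v)) = 0 := by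
  simp only [phiH_34, phiT_03, phiT_04]
  have g1 : Q D v ![1, 2, 3, 4, 5, 6] ![0, 0, 0, 1, -1, 0] ![0, 0, 0, 0, 1, -1] =
      Lz D v ![1, 2, 3, 4, 5, 6] ![1, 2, 3, 5, 4, 6] + Lz D v ![1, 2, 3, 5, 4, 6]
        ![1, 2, 3, 5, 5, 5] - Lz D v ![1, 2, 3, 4, 6, 5] ![1, 2, 3, 5, 5, 5] -
        Lz D v ![1, 2, 3, 4, 5, 6] ![1, 2, 3, 4, 6, 5] :=
    Q_Lz D v (by decide) (by decide) (by decide)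
  have g2 : Q D v ![1, 2, 3, 5, 4, 6] ![0, 0, 0, 1, 0, -1] ![0, 0, 0, 0, 1, -1] =
      Lz D v ![1, 2, 3, 5, 4, 6] ![1, 2, 3, 6, 4, 5] + Lz D v ![1, 2, 3, 6, 4, 5]
        ![1, 2, 3, 6, 5, 4] - Lz D v ![1, 2, 3, 5, 5, 5] ![1, 2, 3, 6, 5, 4] -
        Lz D v ![1, 2, 3, 5, 4, 6] ![1, 2, 3, 5, 5, 5] :=
    Q_Lz D v (by decide) (by decide) (by decide)
  have g3 : Q D v ![1, 2, 3, 4, 6, 5] ![0, 0, 0, 1, -1, 0] ![0, 0, 0, 1, 0, -1] =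
      Lz D v ![1, 2, 3, 4, 6, 5] ![1, 2, 3, 5, 5, 5] + Lz D v ![1, 2, 3, 5, 5, 5]
        ![1, 2, 3, 6, 5, 4] - Lz D v ![1, 2, 3, 5, 6, 4] ![1, 2, 3, 6, 5, 4] -
        Lz D v ![1, 2, 3, 4, 6, 5] ![1, 2, 3, 5, 6, 4] :=
    Q_Lz D v (by decide) (by decide) (by decide)
  have e4 : Q D v ![2, 1, 3, 4, 5, 6] ![0, 0, 0, 1, -1, 0] ![0, 0, 0, 0, 1, -1] =
      Q D (D.s 0 v) ![1, 2, 3, 4, 5, 6] ![0, 0, 0, 1, -1, 0] ![0, 0, 0, 0, 1, -1] := by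
    rw [Q_step D 0 v (a := ![2, 1, 3, 4, 5, 6]) (u := ![0, 0, 0, 1, -1, 0]) (w := ![0, 0, 0, 0, 1, -1])
      (a' := ![1, 2, 3, 4, 5, 6]) (u' := ![0, 0, 0, 1, -1, 0]) (w' := ![0, 0, 0, 0, 1, -1]) (by decide)]
  have g4 : Q D v ![2, 1, 3, 4, 5, 6] ![0, 0, 0, 1, -1, 0] ![0, 0, 0, 0, 1, -1] =
      Lz D v ![2, 1, 3, 4, 5, 6] ![2, 1, 3, 5, 4, 6] + Lz D v ![2, 1, 3, 5, 4, 6]
        ![2, 1, 3, 5, 5, 5] - Lz D v ![2, 1, 3, 4, 6, 5] ![2, 1, 3, 5, 5, 5] -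
        Lz D v ![2, 1, 3, 4, 5, 6] ![2, 1, 3, 4, 6, 5] :=
    Q_Lz D v (by decide) (by decide) (by decide)
  have e5 : Q D v ![2, 1, 3, 5, 4, 6] ![0, 0, 0, 1, 0, -1] ![0, 0, 0, 0, 1, -1] =
      Q D (D.s 0 v) ![1, 2, 3, 5, 4, 6] ![0, 0, 0, 1, 0, -1] ![0, 0, 0, 0, 1, -1] := by
    rw [Q_step D 0 v (a := ![2, 1, 3, 5, 4, 6]) (u := ![0, 0, 0, 1, 0, -1]) (w := ![0, 0, 0, 0, 1, -1])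
      (a' := ![1, 2, 3, 5, 4, 6]) (u' := ![0, 0, 0, 1, 0, -1]) (w' := ![0, 0, 0, 0, 1, -1]) (by decide)]
  have g5 : Q D v ![2, 1, 3, 5, 4, 6] ![0, 0, 0, 1, 0, -1] ![0, 0, 0, 0, 1, -1] =
      Lz D v ![2, 1, 3, 5, 4, 6] ![2, 1, 3, 6, 4, 5] + Lz D v ![2, 1, 3, 6, 4, 5]
        ![2, 1, 3, 6, 5, 4] - Lz D v ![2, 1, 3, 5, 5, 5] ![2, 1, 3, 6, 5, 4] -
        Lz D v ![2, 1, 3, 5, 4, 6] ![2, 1, 3, 5, 5, 5] :=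
    Q_Lz D v (by decide) (by decide) (by decide)
  have e6 : Q D v ![2, 1, 3, 4, 6, 5] ![0, 0, 0, 1, -1, 0] ![0, 0, 0, 1, 0, -1] =
      Q D (D.s 0 v) ![1, 2, 3, 4, 6, 5] ![0, 0, 0, 1, -1, 0] ![0, 0, 0, 1, 0, -1] := by
    rw [Q_step D 0 v (a := ![2, 1, 3, 4, 6, 5]) (u := ![0, 0, 0, 1, -1, 0]) (w := ![0, 0, 0, 1, 0, -1])
      (a' := ![1, 2, 3, 4, 6, 5]) (u' := ![0, 0, 0, 1, -1, 0]) (w' := ![0, 0, 0, 1, 0, -1]) (by decide)]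
  have g6 : Q D v ![2, 1, 3, 4, 6, 5] ![0, 0, 0, 1, -1, 0] ![0, 0, 0, 1, 0, -1] =
      Lz D v ![2, 1, 3, 4, 6, 5] ![2, 1, 3, 5, 5, 5] + Lz D v ![2, 1, 3, 5, 5, 5]
        ![2, 1, 3, 6, 5, 4] - Lz D v ![2, 1, 3, 5, 6, 4] ![2, 1, 3, 6, 5, 4] -
        Lz D v ![2, 1, 3, 4, 6, 5] ![2, 1, 3, 5, 6, 4] :=
    Q_Lz D v (by decide) (by decide) (by decide)
  have g7 : Q D v ![1, 2, 3, 4, 5, 6] ![1, -1, 0, 0, 0, 0] ![0, 0, 0, 0, 1, -1] =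
      Lz D v ![1, 2, 3, 4, 5, 6] ![2, 1, 3, 4, 5, 6] + Lz D v ![2, 1, 3, 4, 5, 6]
        ![2, 1, 3, 4, 6, 5] - Lz D v ![1, 2, 3, 4, 6, 5] ![2, 1, 3, 4, 6, 5] -
        Lz D v ![1, 2, 3, 4, 5, 6] ![1, 2, 3, 4, 6, 5] :=
    Q_Lz D v (by decide) (by decide) (by decide)
  have e8 : Q D v ![1, 2, 3, 5, 4, 6] ![1, -1, 0, 0, 0, 0] ![0, 0, 0, 1, 0, -1] =
      Q D (D.s 3 v) ![1, 2, 3, 4, 5, 6] ![1, -1, 0, 0, 0, 0] ![0, 0, 0, 0, 1, -1] := by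
    rw [Q_step D 3 v (a := ![1, 2, 3, 5, 4, 6]) (u := ![1, -1, 0, 0, 0, 0]) (w := ![0, 0, 0, 1, 0, -1])
      (a' := ![1, 2, 3, 4, 5, 6]) (u' := ![1, -1, 0, 0, 0, 0]) (w' := ![0, 0, 0, 0, 1, -1]) (by decide)]
  have g8 : Q D v ![1, 2, 3, 5, 4, 6] ![1, -1, 0, 0, 0, 0] ![0, 0, 0, 1, 0, -1] =
      Lz D v ![1, 2, 3, 5, 4, 6] ![2, 1, 3, 5, 4, 6] + Lz D v ![2, 1, 3, 5, 4, 6]
        ![2, 1, 3, 6, 4, 5] - Lz D v ![1, 2, 3, 6, 4, 5] ![2, 1, 3, 6, 4, 5] -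
        Lz D v ![1, 2, 3, 5, 4, 6] ![1, 2, 3, 6, 4, 5] :=
    Q_Lz D v (by decide) (by decide) (by decide)
  have e9 : Q D v ![1, 2, 3, 5, 6, 4] ![1, -1, 0, 0, 0, 0] ![0, 0, 0, 1, -1, 0] =
      Q D (D.s 3 (D.s 4 v)) ![1, 2, 3, 4, 5, 6] ![1, -1, 0, 0, 0, 0] ![0, 0, 0, 0, 1, -1] := by
    rw [Q_step D 4 v (a := ![1, 2, 3, 5, 6, 4]) (u := ![1, -1, 0, 0, 0, 0]) (w := ![0, 0, 0, 1, -1, 0])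
      (a' := ![1, 2, 3, 5, 4, 6]) (u' := ![1, -1, 0, 0, 0, 0]) (w' := ![0, 0, 0, 1, 0, -1]) (by decide)]
    rw [Q_step D 3 (D.s 4 v) (a := ![1, 2, 3, 5, 4, 6]) (u := ![1, -1, 0, 0, 0, 0]) (w := ![0, 0, 0, 1, 0, -1])
      (a' := ![1, 2, 3, 4, 5, 6]) (u' := ![1, -1, 0, 0, 0, 0]) (w' := ![0, 0, 0, 0, 1, -1]) (by decide)]
  have g9 : Q D v ![1, 2, 3, 5, 6, 4] ![1, -1, 0, 0, 0, 0] ![0, 0, 0, 1, -1, 0] =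
      Lz D v ![1, 2, 3, 5, 6, 4] ![2, 1, 3, 5, 6, 4] + Lz D v ![2, 1, 3, 5, 6, 4]
        ![2, 1, 3, 6, 5, 4] - Lz D v ![1, 2, 3, 6, 5, 4] ![2, 1, 3, 6, 5, 4] -
        Lz D v ![1, 2, 3, 5, 6, 4] ![1, 2, 3, 6, 5, 4] :=
    Q_Lz D v (by decide) (by decide) (by decide)
  have g10 : Q D v ![1, 2, 3, 4, 5, 6] ![1, -1, 0, 0, 0, 0] ![0, 0, 0, 1, -1, 0] =
      Lz D v ![1, 2, 3, 4, 5, 6] ![2, 1, 3, 4, 5, 6] + Lz D v ![2, 1, 3, 4, 5, 6]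
        ![2, 1, 3, 5, 4, 6] - Lz D v ![1, 2, 3, 5, 4, 6] ![2, 1, 3, 5, 4, 6] -
        Lz D v ![1, 2, 3, 4, 5, 6] ![1, 2, 3, 5, 4, 6] :=
    Q_Lz D v (by decide) (by decide) (by decide)
  have e11 : Q D v ![1, 2, 3, 4, 6, 5] ![1, -1, 0, 0, 0, 0] ![0, 0, 0, 1, 0, -1] =
      Q D (D.s 4 v) ![1, 2, 3, 4, 5, 6] ![1, -1, 0, 0, 0, 0] ![0, 0, 0, 1, -1, 0] := by
    rw [Q_step D 4 v (a := ![1, 2, 3, 4, 6, 5]) (u := ![1, -1, 0, 0, 0, 0]) (w := ![0, 0, 0, 1, 0, -1])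
      (a' := ![1, 2, 3, 4, 5, 6]) (u' := ![1, -1, 0, 0, 0, 0]) (w' := ![0, 0, 0, 1, -1, 0]) (by decide)]
  have g11 : Q D v ![1, 2, 3, 4, 6, 5] ![1, -1, 0, 0, 0, 0] ![0, 0, 0, 1, 0, -1] =
      Lz D v ![1, 2, 3, 4, 6, 5] ![2, 1, 3, 4, 6, 5] + Lz D v ![2, 1, 3, 4, 6, 5]
        ![2, 1, 3, 5, 6, 4] - Lz D v ![1, 2, 3, 5, 6, 4] ![2, 1, 3, 5, 6, 4] -
        Lz D v ![1, 2, 3, 4, 6, 5] ![1, 2, 3, 5, 6, 4] :=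
    Q_Lz D v (by decide) (by decide) (by decide)
  have e12 : Q D v ![1, 2, 3, 6, 4, 5] ![1, -1, 0, 0, 0, 0] ![0, 0, 0, 0, 1, -1] =
      Q D (D.s 4 (D.s 3 v)) ![1, 2, 3, 4, 5, 6] ![1, -1, 0, 0, 0, 0] ![0, 0, 0, 1, -1, 0] := by
    rw [Q_step D 3 v (a := ![1, 2, 3, 6, 4, 5]) (u := ![1, -1, 0, 0, 0, 0]) (w := ![0, 0, 0, 0, 1, -1])
      (a' := ![1, 2, 3, 4, 6, 5]) (u' := ![1, -1, 0, 0, 0, 0]) (w' := ![0, 0, 0, 1, 0, -1]) (by decide)]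
    rw [Q_step D 4 (D.s 3 v) (a := ![1, 2, 3, 4, 6, 5]) (u := ![1, -1, 0, 0, 0, 0]) (w := ![0, 0, 0, 1, 0, -1])
      (a' := ![1, 2, 3, 4, 5, 6]) (u' := ![1, -1, 0, 0, 0, 0]) (w' := ![0, 0, 0, 1, -1, 0]) (by decide)]
  have g12 : Q D v ![1, 2, 3, 6, 4, 5] ![1, -1, 0, 0, 0, 0] ![0, 0, 0, 0, 1, -1] =
      Lz D v ![1, 2, 3, 6, 4, 5] ![2, 1, 3, 6, 4, 5] + Lz D v ![2, 1, 3, 6, 4, 5]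
        ![2, 1, 3, 6, 5, 4] - Lz D v ![1, 2, 3, 6, 5, 4] ![2, 1, 3, 6, 5, 4] -
        Lz D v ![1, 2, 3, 6, 4, 5] ![1, 2, 3, 6, 5, 4] :=
    Q_Lz D v (by decide) (by decide) (by decide)
  rw [g1, g2, g3, ← e4, g4, ← e5, g5, ← e6,
    g6, g7, ← e8, g8, ← e9, g9, g10, ← e11,
    g11, ← e12, g12]
  abel

/-- the relation of the three-cell with generators 1, 3, 4 -/
theorem rel_134 (D : Loc2 V F) (v : V) :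
    -phiH D 3 4 v + phiH D 3 4 (D.s 1 v) + phiT D 1 4 v - phiT D 1 4 (D.s 3 v)
      + phiT D 1 4 (D.s 3 (D.s 4 v)) - phiT D 1 3 v + phiT D 1 3 (D.s 4 v)
      - phiT D 1 3 (D.s 4 (D.s 3 v)) = 0 := by
  simp only [phiH_34, phiT_13, phiT_14]
  have g1 : Q D v ![1, 2, 3, 4, 5, 6] ![0, 0, 0, 1, -1, 0] ![0, 0, 0, 0, 1, -1] =
      Lz D v ![1, 2, 3, 4, 5, 6] ![1, 2, 3, 5, 4, 6] + Lz D v ![1, 2, 3, 5, 4, 6]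
        ![1, 2, 3, 5, 5, 5] - Lz D v ![1, 2, 3, 4, 6, 5] ![1, 2, 3, 5, 5, 5] -
        Lz D v ![1, 2, 3, 4, 5, 6] ![1, 2, 3, 4, 6, 5] :=
    Q_Lz D v (by decide) (by decide) (by decide)
  have g2 : Q D v ![1, 2, 3, 5, 4, 6] ![0, 0, 0, 1, 0, -1] ![0, 0, 0, 0, 1, -1] =
      Lz D v ![1, 2, 3, 5, 4, 6] ![1, 2, 3, 6, 4, 5] + Lz D v ![1, 2, 3, 6, 4, 5]
        ![1, 2, 3, 6, 5, 4] - Lz D v ![1, 2, 3, 5, 5, 5] ![1, 2, 3, 6, 5, 4] -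
        Lz D v ![1, 2, 3, 5, 4, 6] ![1, 2, 3, 5, 5, 5] :=
    Q_Lz D v (by decide) (by decide) (by decide)
  have g3 : Q D v ![1, 2, 3, 4, 6, 5] ![0, 0, 0, 1, -1, 0] ![0, 0, 0, 1, 0, -1] =
      Lz D v ![1, 2, 3, 4, 6, 5] ![1, 2, 3, 5, 5, 5] + Lz D v ![1, 2, 3, 5, 5, 5]
        ![1, 2, 3, 6, 5, 4] - Lz D v ![1, 2, 3, 5, 6, 4] ![1, 2, 3, 6, 5, 4] -
        Lz D v ![1, 2, 3, 4, 6, 5] ![1, 2, 3, 5, 6, 4] :=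
    Q_Lz D v (by decide) (by decide) (by decide)
  have e4 : Q D v ![1, 3, 2, 4, 5, 6] ![0, 0, 0, 1, -1, 0] ![0, 0, 0, 0, 1, -1] =
      Q D (D.s 1 v) ![1, 2, 3, 4, 5, 6] ![0, 0, 0, 1, -1, 0] ![0, 0, 0, 0, 1, -1] := by
    rw [Q_step D 1 v (a := ![1, 3, 2, 4, 5, 6]) (u := ![0, 0, 0, 1, -1, 0]) (w := ![0, 0, 0, 0, 1, -1])
      (a' := ![1, 2, 3, 4, 5, 6]) (u' := ![0, 0, 0, 1, -1, 0]) (w' := ![0, 0, 0, 0, 1, -1]) (by decide)]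
  have g4 : Q D v ![1, 3, 2, 4, 5, 6] ![0, 0, 0, 1, -1, 0] ![0, 0, 0, 0, 1, -1] =
      Lz D v ![1, 3, 2, 4, 5, 6] ![1, 3, 2, 5, 4, 6] + Lz D v ![1, 3, 2, 5, 4, 6]
        ![1, 3, 2, 5, 5, 5] - Lz D v ![1, 3, 2, 4, 6, 5] ![1, 3, 2, 5, 5, 5] -
        Lz D v ![1, 3, 2, 4, 5, 6] ![1, 3, 2, 4, 6, 5] :=
    Q_Lz D v (by decide) (by decide) (by decide)
  have e5 : Q D v ![1, 3, 2, 5, 4, 6] ![0, 0, 0, 1, 0, -1] ![0, 0, 0, 0, 1, -1] =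
      Q D (D.s 1 v) ![1, 2, 3, 5, 4, 6] ![0, 0, 0, 1, 0, -1] ![0, 0, 0, 0, 1, -1] := by
    rw [Q_step D 1 v (a := ![1, 3, 2, 5, 4, 6]) (u := ![0, 0, 0, 1, 0, -1]) (w := ![0, 0, 0, 0, 1, -1])
      (a' := ![1, 2, 3, 5, 4, 6]) (u' := ![0, 0, 0, 1, 0, -1]) (w' := ![0, 0, 0, 0, 1, -1]) (by decide)]
  have g5 : Q D v ![1, 3, 2, 5, 4, 6] ![0, 0, 0, 1, 0, -1] ![0, 0, 0, 0, 1, -1] =
      Lz D v ![1, 3, 2, 5, 4, 6] ![1, 3, 2, 6, 4, 5] + Lz D v ![1, 3, 2, 6, 4, 5]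
        ![1, 3, 2, 6, 5, 4] - Lz D v ![1, 3, 2, 5, 5, 5] ![1, 3, 2, 6, 5, 4] -
        Lz D v ![1, 3, 2, 5, 4, 6] ![1, 3, 2, 5, 5, 5] :=
    Q_Lz D v (by decide) (by decide) (by decide)
  have e6 : Q D v ![1, 3, 2, 4, 6, 5] ![0, 0, 0, 1, -1, 0] ![0, 0, 0, 1, 0, -1] =
      Q D (D.s 1 v) ![1, 2, 3, 4, 6, 5] ![0, 0, 0, 1, -1, 0] ![0, 0, 0, 1, 0, -1] := by
    rw [Q_step D 1 v (a := ![1, 3, 2, 4, 6, 5]) (u := ![0, 0, 0, 1, -1, 0]) (w := ![0, 0, 0, 1, 0, -1])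
      (a' := ![1, 2, 3, 4, 6, 5]) (u' := ![0, 0, 0, 1, -1, 0]) (w' := ![0, 0, 0, 1, 0, -1]) (by decide)]
  have g6 : Q D v ![1, 3, 2, 4, 6, 5] ![0, 0, 0, 1, -1, 0] ![0, 0, 0, 1, 0, -1] =
      Lz D v ![1, 3, 2, 4, 6, 5] ![1, 3, 2, 5, 5, 5] + Lz D v ![1, 3, 2, 5, 5, 5]
        ![1, 3, 2, 6, 5, 4] - Lz D v ![1, 3, 2, 5, 6, 4] ![1, 3, 2, 6, 5, 4] -
        Lz D v ![1, 3, 2, 4, 6, 5] ![1, 3, 2, 5, 6, 4] :=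
    Q_Lz D v (by decide) (by decide) (by decide)
  have g7 : Q D v ![1, 2, 3, 4, 5, 6] ![0, 1, -1, 0, 0, 0] ![0, 0, 0, 0, 1, -1] =
      Lz D v ![1, 2, 3, 4, 5, 6] ![1, 3, 2, 4, 5, 6] + Lz D v ![1, 3, 2, 4, 5, 6]
        ![1, 3, 2, 4, 6, 5] - Lz D v ![1, 2, 3, 4, 6, 5] ![1, 3, 2, 4, 6, 5] -
        Lz D v ![1, 2, 3, 4, 5, 6] ![1, 2, 3, 4, 6, 5] :=
    Q_Lz D v (by decide) (by decide) (by decide)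
  have e8 : Q D v ![1, 2, 3, 5, 4, 6] ![0, 1, -1, 0, 0, 0] ![0, 0, 0, 1, 0, -1] =
      Q D (D.s 3 v) ![1, 2, 3, 4, 5, 6] ![0, 1, -1, 0, 0, 0] ![0, 0, 0, 0, 1, -1] := by
    rw [Q_step D 3 v (a := ![1, 2, 3, 5, 4, 6]) (u := ![0, 1, -1, 0, 0, 0]) (w := ![0, 0, 0, 1, 0, -1])
      (a' := ![1, 2, 3, 4, 5, 6]) (u' := ![0, 1, -1, 0, 0, 0]) (w' := ![0, 0, 0, 0, 1, -1]) (by decide)]
  have g8 : Q D v ![1, 2, 3, 5, 4, 6] ![0, 1, -1, 0, 0, 0] ![0, 0, 0, 1, 0, -1] =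
      Lz D v ![1, 2, 3, 5, 4, 6] ![1, 3, 2, 5, 4, 6] + Lz D v ![1, 3, 2, 5, 4, 6]
        ![1, 3, 2, 6, 4, 5] - Lz D v ![1, 2, 3, 6, 4, 5] ![1, 3, 2, 6, 4, 5] -
        Lz D v ![1, 2, 3, 5, 4, 6] ![1, 2, 3, 6, 4, 5] :=
    Q_Lz D v (by decide) (by decide) (by decide)
  have e9 : Q D v ![1, 2, 3, 5, 6, 4] ![0, 1, -1, 0, 0, 0] ![0, 0, 0, 1, -1, 0] =
      Q D (D.s 3 (D.s 4 v)) ![1, 2, 3, 4, 5, 6] ![0, 1, -1, 0, 0, 0] ![0, 0, 0, 0, 1, -1] := by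
    rw [Q_step D 4 v (a := ![1, 2, 3, 5, 6, 4]) (u := ![0, 1, -1, 0, 0, 0]) (w := ![0, 0, 0, 1, -1, 0])
      (a' := ![1, 2, 3, 5, 4, 6]) (u' := ![0, 1, -1, 0, 0, 0]) (w' := ![0, 0, 0, 1, 0, -1]) (by decide)]
    rw [Q_step D 3 (D.s 4 v) (a := ![1, 2, 3, 5, 4, 6]) (u := ![0, 1, -1, 0, 0, 0]) (w := ![0, 0, 0, 1, 0, -1])
      (a' := ![1, 2, 3, 4, 5, 6]) (u' := ![0, 1, -1, 0, 0, 0]) (w' := ![0, 0, 0, 0, 1, -1]) (by decide)]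
  have g9 : Q D v ![1, 2, 3, 5, 6, 4] ![0, 1, -1, 0, 0, 0] ![0, 0, 0, 1, -1, 0] =
      Lz D v ![1, 2, 3, 5, 6, 4] ![1, 3, 2, 5, 6, 4] + Lz D v ![1, 3, 2, 5, 6, 4]
        ![1, 3, 2, 6, 5, 4] - Lz D v ![1, 2, 3, 6, 5, 4] ![1, 3, 2, 6, 5, 4] -
        Lz D v ![1, 2, 3, 5, 6, 4] ![1, 2, 3, 6, 5, 4] :=
    Q_Lz D v (by decide) (by decide) (by decide)
  have g10 : Q D v ![1, 2, 3, 4, 5, 6] ![0, 1, -1, 0, 0, 0] ![0, 0, 0, 1, -1, 0] =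
      Lz D v ![1, 2, 3, 4, 5, 6] ![1, 3, 2, 4, 5, 6] + Lz D v ![1, 3, 2, 4, 5, 6]
        ![1, 3, 2, 5, 4, 6] - Lz D v ![1, 2, 3, 5, 4, 6] ![1, 3, 2, 5, 4, 6] -
        Lz D v ![1, 2, 3, 4, 5, 6] ![1, 2, 3, 5, 4, 6] :=
    Q_Lz D v (by decide) (by decide) (by decide)
  have e11 : Q D v ![1, 2, 3, 4, 6, 5] ![0, 1, -1, 0, 0, 0] ![0, 0, 0, 1, 0, -1] =
      Q D (D.s 4 v) ![1, 2, 3, 4, 5, 6] ![0, 1, -1, 0, 0, 0] ![0, 0, 0, 1, -1, 0] := by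
    rw [Q_step D 4 v (a := ![1, 2, 3, 4, 6, 5]) (u := ![0, 1, -1, 0, 0, 0]) (w := ![0, 0, 0, 1, 0, -1])
      (a' := ![1, 2, 3, 4, 5, 6]) (u' := ![0, 1, -1, 0, 0, 0]) (w' := ![0, 0, 0, 1, -1, 0]) (by decide)]
  have g11 : Q D v ![1, 2, 3, 4, 6, 5] ![0, 1, -1, 0, 0, 0] ![0, 0, 0, 1, 0, -1] =
      Lz D v ![1, 2, 3, 4, 6, 5] ![1, 3, 2, 4, 6, 5] + Lz D v ![1, 3, 2, 4, 6, 5]
        ![1, 3, 2, 5, 6, 4] - Lz D v ![1, 2, 3, 5, 6, 4] ![1, 3, 2, 5, 6, 4] -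
        Lz D v ![1, 2, 3, 4, 6, 5] ![1, 2, 3, 5, 6, 4] :=
    Q_Lz D v (by decide) (by decide) (by decide)
  have e12 : Q D v ![1, 2, 3, 6, 4, 5] ![0, 1, -1, 0, 0, 0] ![0, 0, 0, 0, 1, -1] =
      Q D (D.s 4 (D.s 3 v)) ![1, 2, 3, 4, 5, 6] ![0, 1, -1, 0, 0, 0] ![0, 0, 0, 1, -1, 0] := by
    rw [Q_step D 3 v (a := ![1, 2, 3, 6, 4, 5]) (u := ![0, 1, -1, 0, 0, 0]) (w := ![0, 0, 0, 0, 1, -1])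
      (a' := ![1, 2, 3, 4, 6, 5]) (u' := ![0, 1, -1, 0, 0, 0]) (w' := ![0, 0, 0, 1, 0, -1]) (by decide)]
    rw [Q_step D 4 (D.s 3 v) (a := ![1, 2, 3, 4, 6, 5]) (u := ![0, 1, -1, 0, 0, 0]) (w := ![0, 0, 0, 1, 0, -1])
      (a' := ![1, 2, 3, 4, 5, 6]) (u' := ![0, 1, -1, 0, 0, 0]) (w' := ![0, 0, 0, 1, -1, 0]) (by decide)]
  have g12 : Q D v ![1, 2, 3, 6, 4, 5] ![0, 1, -1, 0, 0, 0] ![0, 0, 0, 0, 1, -1] =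
      Lz D v ![1, 2, 3, 6, 4, 5] ![1, 3, 2, 6, 4, 5] + Lz D v ![1, 3, 2, 6, 4, 5]
        ![1, 3, 2, 6, 5, 4] - Lz D v ![1, 2, 3, 6, 5, 4] ![1, 3, 2, 6, 5, 4] -
        Lz D v ![1, 2, 3, 6, 4, 5] ![1, 2, 3, 6, 5, 4] :=
    Q_Lz D v (by decide) (by decide) (by decide)
  rw [g1, g2, g3, ← e4, g4, ← e5, g5, ← e6,
    g6, g7, ← e8, g8, ← e9, g9, g10, ← e11,
    g11, ← e12, g12]
  abel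

end Vale.Agent.P273.H681
end
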