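import Vale.Agent.P273.H681.Eng
import Vale.Agent.P273.H480.Data
import Vale.Agent.P273.H480.Data2

/-!
Kernel checks of the identities between the tables of the certificate.
-/

namespace Vale.Agent.P273.H681

open H480

theorem k_c24 : eq4 (ad (ng (ad (sb tY124 (q0 tY124)) (q0 (q1 tY124)))) (ad (sb (ad (ad (sb tY234
    (q2 tY234)) (q2 (q1 tY234))) (q2 (q3 tY234))) (q2 (q3 (q1 tY234)))) (q2 (q3 (q1 (q2
    tY234)))))) z0 = true := by
  decide +kernel

end Vale.Agent.P273.H681
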