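import Vale.Agent.P273.H517.Bd
import Vale.Agent.P273.H604.CutBd
import Vale.Agent.P273.H630.D0
import Vale.Agent.P273.H828.AnnDefs

/-!
# P273, crew ASY0, far chart of the cores: the cut-off core function

`phF (‖w‖² R2 ε)` is helper604's cut-off at infinity `chiI b (1/w)` at the theta configurations
(`R2 ε = (Rr b)²` depends on the roots through `ε` only), also at `w = 0`. `KG = (1 - phF) • KF`
(helper517's `KF`) is the function whose real part is the cut-off potential, with bounds.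
-/

noncomputable section

namespace Vale.Agent.P273.H681.FarK

open Set Filter Topology Complex
open scoped ContDiff
open H95 (ctr)

/-- the cut-off as a function of `‖w‖² (Rr b)²` -/
def phF (q : ℝ) : ℝ := if q ≤ 0 then 1 else Real.smoothTransition (q⁻¹ - 1)

theorem phF_of_pos {q : ℝ} (h : 0 < q) : phF q = Real.smoothTransition (q⁻¹ - 1) := by
  rw [phF, if_neg (not_le.2 h)]

theorem phF_eq_one {q : ℝ} (h : q ≤ 1 / 2) : phF q = 1 := by
  rcases le_or_gt q 0 with h0 | h0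
  · rw [phF, if_pos h0]
  · rw [phF_of_pos h0]
    refine Real.smoothTransition.one_of_one_le ?_
    have h1 : 2 ≤ q⁻¹ := by
      rw [le_inv_comm₀ (by norm_num) h0]
      linarith
    linarith

theorem phF_eq_zero {q : ℝ} (h : 1 ≤ q) : phF q = 0 := by
  rw [phF_of_pos (by linarith)]
  refine Real.smoothTransition.zero_of_nonpos ?_
  have h1 : q⁻¹ ≤ 1 := inv_le_one_of_one_le₀ h
  linarith

theorem phF_nonneg (q : ℝ) : 0 ≤ phF q := by
  unfold phF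
  split_ifs
  · norm_num
  · exact Real.smoothTransition.nonneg _

theorem phF_le_one (q : ℝ) : phF q ≤ 1 := by
  unfold phF
  split_ifs
  · norm_num
  · exact Real.smoothTransition.le_one _

theorem contDiff_phF : ContDiff ℝ ∞ phF := by
  rw [contDiff_iff_contDiffAt]
  intro q
  rcases lt_or_ge q (1 / 2) with h | h
  · refine (contDiffAt_const (c := (1 : ℝ))).congr_of_eventuallyEq ?_
    filter_upwards [gt_mem_nhds h] with z hz using phF_eq_one (le_of_lt hz)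
  · have h0 : 0 < q := by linarith
    have h1 : ContDiffAt ℝ ∞ (fun q : ℝ => q⁻¹ - 1) q :=
      (contDiffAt_inv ℝ h0.ne').sub contDiffAt_const
    have h2 : ContDiffAt ℝ ∞ (fun q : ℝ => Real.smoothTransition (q⁻¹ - 1)) q :=
      ContDiffAt.comp (g := Real.smoothTransition) (f := fun q : ℝ => q⁻¹ - 1) q
        Real.smoothTransition.contDiff.contDiffAt h1
    refine h2.congr_of_eventuallyEq ?_
    filter_upwards [lt_mem_nhds h0] with z hz using phF_of_pos hz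

theorem exists_bound_phF : ∃ K : ℝ, 0 < K ∧ ∀ q, |deriv phF q| ≤ K := by
  have hc : Continuous (deriv phF) := contDiff_phF.continuous_deriv (by simp)
  obtain ⟨K, hK⟩ := (isCompact_Icc (a := (1 / 2 : ℝ)) (b := 1)).exists_bound_of_continuousOn
    hc.continuousOn
  refine ⟨max K 1, lt_max_of_lt_right one_pos, fun q => ?_⟩
  by_cases h : q ∈ Icc (1 / 2 : ℝ) 1
  · exact (hK q h).trans (le_max_left _ _)
  · have h1 : deriv phF q = 0 := by
      rcases lt_or_ge q (1 / 2) with h2 | h2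
      · have h3 : phF =ᶠ[𝓝 q] fun _ => (1 : ℝ) := by
          filter_upwards [gt_mem_nhds h2] with z hz using phF_eq_one (le_of_lt hz)
        rw [h3.deriv_eq]
        simp
      · have h4 : 1 < q := by
          by_contra h5
          exact h ⟨h2, not_lt.1 h5⟩
        have h3 : phF =ᶠ[𝓝 q] fun _ => (0 : ℝ) := by
          filter_upwards [lt_mem_nhds h4] with z hz using phF_eq_zero (le_of_lt hz)
        rw [h3.deriv_eq]
        simp
    rw [h1, abs_zero]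
    exact le_max_of_le_right zero_le_one

/-- `(Rr b)²` at the theta configurations -/
def R2 (ε : Fin 3 → ℂ) : ℝ := 64 * (1 + ∑ k, 2 * (‖ctr k‖ ^ 2 + ‖ε k‖))

theorem parallelogram (c d : ℂ) : ‖c - d‖ ^ 2 + ‖c + d‖ ^ 2 = 2 * (‖c‖ ^ 2 + ‖d ^ 2‖) := by
  rw [norm_pow, ← Complex.normSq_eq_norm_sq, ← Complex.normSq_eq_norm_sq,
    ← Complex.normSq_eq_norm_sq, ← Complex.normSq_eq_norm_sq]
  simp only [Complex.normSq_apply, sub_re, sub_im, add_re, add_im]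
  ring

theorem Rr_th (d : Fin 3 → ℂ) : H604.Rr (H828.th d) ^ 2 = R2 fun k => d k ^ 2 := by
  rw [H604.Rr_sq, R2, Fin.sum_univ_six, Fin.sum_univ_three]
  have h0 := parallelogram (ctr 0) (d 0)
  have h1 := parallelogram (ctr 1) (d 1)
  have h2 := parallelogram (ctr 2) (d 2)
  have e0 : H828.th d 0 = ctr 0 - d 0 := by
    simp only [H828.th, ctr, Matrix.cons_val]
    norm_num
  have e1 : H828.th d 1 = ctr 0 + d 0 := by
    simp only [H828.th, ctr, Matrix.cons_val]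
    norm_num
  have e2 : H828.th d 2 = ctr 1 - d 1 := by
    simp only [H828.th, ctr, Matrix.cons_val]
    norm_num
  have e3 : H828.th d 3 = ctr 1 + d 1 := by
    simp only [H828.th, ctr, Matrix.cons_val]
    norm_num
  have e4 : H828.th d 4 = ctr 2 - d 2 := by
    simp only [H828.th, ctr, Matrix.cons_val]
    norm_num
  have e5 : H828.th d 5 = ctr 2 + d 2 := by
    simp only [H828.th, ctr, Matrix.cons_val]
    norm_num
  rw [e0, e1, e2, e3, e4, e5]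
  linarith

theorem R2_pos (ε : Fin 3 → ℂ) : 64 ≤ R2 ε := by
  have h : 0 ≤ ∑ k, 2 * (‖ctr k‖ ^ 2 + ‖ε k‖) := Finset.sum_nonneg fun k _ => by positivity
  rw [R2]
  linarith

theorem norm_ctr (k : Fin 3) : ‖ctr k‖ ^ 2 ≤ 121 / 4 := by
  have h : ctr k = ((2 * (k : ℝ) + 3 / 2 : ℝ) : ℂ) := by
    simp only [ctr]
    push_cast
    ring
  rw [h, Complex.norm_real, Real.norm_eq_abs, sq_abs]
  fin_cases k <;> norm_num

theorem R2_le {ε : Fin 3 → ℂ} (h : ∀ k, ‖ε k‖ ≤ 2) : R2 ε ≤ 12500 := by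
  have h1 : ∑ k, 2 * (‖ctr k‖ ^ 2 + ‖ε k‖) ≤ ∑ _k : Fin 3, (2 * (121 / 4 + 2) : ℝ) :=
    Finset.sum_le_sum fun k _ => by
      have := norm_ctr k
      have := h k
      linarith
  simp only [Finset.sum_const, Finset.card_univ, Fintype.card_fin, nsmul_eq_mul] at h1
  rw [R2]
  norm_num at h1 ⊢
  linarith

/-- the argument of the cut-off -/
def qF (p : (Fin 3 → ℂ) × ℂ) : ℝ := ‖p.2‖ ^ 2 * R2 p.1

theorem chiI_eq_phF (d : Fin 3 → ℂ) {w : ℂ} (hw : w ≠ 0) :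
    H604.chiI (H828.th d) w⁻¹ = phF (qF (fun k => d k ^ 2, w)) := by
  have h1 : 0 < ‖w‖ := norm_pos_iff.2 hw
  have h2 := R2_pos fun k => d k ^ 2
  have h3 : 0 < qF (fun k => d k ^ 2, w) := by
    unfold qF
    positivity
  rw [phF_of_pos h3, H604.chiI, Rr_th, qF, norm_inv, inv_pow]
  congr 2
  rw [mul_inv, div_eq_mul_inv]

theorem differentiableAt_qF {p : (Fin 3 → ℂ) × ℂ} (h : ∀ k, p.1 k ≠ 0) :
    DifferentiableAt ℝ qF p := by
  unfold qF R2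
  have h1 : DifferentiableAt ℝ (fun p : (Fin 3 → ℂ) × ℂ => ‖p.2‖ ^ 2) p :=
    differentiableAt_snd.norm_sq ℝ
  have h2 : ∀ k ∈ (Finset.univ : Finset (Fin 3)), DifferentiableAt ℝ
      (fun p : (Fin 3 → ℂ) × ℂ => 2 * (‖ctr k‖ ^ 2 + ‖p.1 k‖)) p := by
    intro k _
    have h3 : DifferentiableAt ℝ (fun p : (Fin 3 → ℂ) × ℂ => p.1 k) p := by fun_prop
    exact ((h3.norm ℝ (h k)).const_add _).const_mul _
  exact h1.mul (((DifferentiableAt.fun_sum h2).const_add _).const_mul _)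

theorem norm_fderiv_qF {p : (Fin 3 → ℂ) × ℂ} (h1 : ‖p.1‖ ≤ 1) (h2 : ‖p.2‖ ≤ 1) :
    ‖fderiv ℝ qF p‖ ≤ 38000 := by
  refine norm_fderiv_le_of_lip' ℝ (by norm_num) ?_
  have h3 : ∀ᶠ z : (Fin 3 → ℂ) × ℂ in 𝓝 p, ‖z - p‖ < 1 := by
    have : Continuous fun z : (Fin 3 → ℂ) × ℂ => ‖z - p‖ := by fun_prop
    exact this.continuousAt.eventually (gt_mem_nhds (by simp))
  filter_upwards [h3] with z hz
  have a1 : ‖z.2 - p.2‖ ≤ ‖z - p‖ := norm_snd_le (z - p)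
  have a2 : ‖z.1 - p.1‖ ≤ ‖z - p‖ := norm_fst_le (z - p)
  have a3 : ‖z.2‖ ≤ 2 := by
    have := norm_add_le (z.2 - p.2) p.2
    rw [sub_add_cancel] at this
    linarith
  have a4 : ∀ k, ‖z.1 k‖ ≤ 2 := by
    intro k
    have h4 := norm_add_le (z.1 k - p.1 k) (p.1 k)
    rw [sub_add_cancel] at h4
    have h5 : ‖z.1 k - p.1 k‖ ≤ ‖z.1 - p.1‖ := norm_le_pi_norm (z.1 - p.1) k
    have h6 : ‖p.1 k‖ ≤ ‖p.1‖ := norm_le_pi_norm p.1 k
    linarith
  have e1 : qF z - qF p = (‖z.2‖ ^ 2 - ‖p.2‖ ^ 2) * R2 z.1 + ‖p.2‖ ^ 2 * (R2 z.1 - R2 p.1) := by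
    unfold qF
    ring
  have b1 : |‖z.2‖ ^ 2 - ‖p.2‖ ^ 2| ≤ 3 * ‖z - p‖ := by
    have h4 : ‖z.2‖ ^ 2 - ‖p.2‖ ^ 2 = (‖z.2‖ - ‖p.2‖) * (‖z.2‖ + ‖p.2‖) := by ring
    have h5 : |‖z.2‖ - ‖p.2‖| ≤ ‖z.2 - p.2‖ := abs_norm_sub_norm_le _ _
    rw [h4, abs_mul, abs_of_nonneg (by positivity : 0 ≤ ‖z.2‖ + ‖p.2‖)]
    calc |‖z.2‖ - ‖p.2‖| * (‖z.2‖ + ‖p.2‖) ≤ ‖z - p‖ * 3 := by
          refine mul_le_mul (h5.trans a1) (by linarith) (by positivity) (norm_nonneg _)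
      _ = _ := mul_comm _ _
  have b2 : |R2 z.1 - R2 p.1| ≤ 384 * ‖z - p‖ := by
    have h4 : R2 z.1 - R2 p.1 = ∑ k, 128 * (‖z.1 k‖ - ‖p.1 k‖) := by
      unfold R2
      rw [Fin.sum_univ_three, Fin.sum_univ_three, Fin.sum_univ_three]
      ring
    rw [h4]
    refine (Finset.abs_sum_le_sum_abs _ _).trans ?_
    have h5 : ∀ k ∈ (Finset.univ : Finset (Fin 3)), |128 * (‖z.1 k‖ - ‖p.1 k‖)| ≤
        128 * ‖z - p‖ := by
      intro k _
      rw [abs_mul, abs_of_nonneg (by norm_num : (0 : ℝ) ≤ 128)]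
      refine mul_le_mul_of_nonneg_left ?_ (by norm_num)
      exact (abs_norm_sub_norm_le _ _).trans ((norm_le_pi_norm (z.1 - p.1) k).trans a2)
    refine (Finset.sum_le_sum h5).trans (le_of_eq ?_)
    simp only [Finset.sum_const, Finset.card_univ, Fintype.card_fin, nsmul_eq_mul]
    push_cast
    ring
  have b3 := R2_le a4
  have b4 := R2_pos z.1
  have b5 : ‖p.2‖ ^ 2 ≤ 1 := pow_le_one₀ (norm_nonneg _) h2
  rw [Real.norm_eq_abs, e1]
  refine (abs_add_le _ _).trans ?_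
  rw [abs_mul, abs_mul, abs_of_nonneg (by linarith : 0 ≤ R2 z.1),
    abs_of_nonneg (by positivity : 0 ≤ ‖p.2‖ ^ 2)]
  have c1 : |‖z.2‖ ^ 2 - ‖p.2‖ ^ 2| * R2 z.1 ≤ 3 * ‖z - p‖ * 12500 :=
    mul_le_mul b1 b3 (by linarith) (by positivity)
  have c2 : ‖p.2‖ ^ 2 * |R2 z.1 - R2 p.1| ≤ 1 * (384 * ‖z - p‖) :=
    mul_le_mul b5 b2 (abs_nonneg _) (by norm_num)
  have c3 := norm_nonneg (z - p)
  linarith

/-- the cut-off as a function of `(ε, w)` -/
def cF (p : (Fin 3 → ℂ) × ℂ) : ℝ := phF (qF p)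

theorem hasFDerivAt_cF {p : (Fin 3 → ℂ) × ℂ} (h : ∀ k, p.1 k ≠ 0) :
    HasFDerivAt cF (fderiv ℝ cF p) p := by
  have h1 : DifferentiableAt ℝ phF (qF p) := (contDiff_phF.contDiffAt).differentiableAt (by simp)
  exact (h1.comp p (differentiableAt_qF h)).hasFDerivAt

theorem norm_fderiv_cF {K : ℝ} (hK : ∀ q, |deriv phF q| ≤ K) {p : (Fin 3 → ℂ) × ℂ}
    (h : ∀ k, p.1 k ≠ 0) (h1 : ‖p.1‖ ≤ 1) (h2 : ‖p.2‖ ≤ 1) : ‖fderiv ℝ cF p‖ ≤ K * 38000 := by
  have h3 : HasDerivAt phF (deriv phF (qF p)) (qF p) :=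
    ((contDiff_phF.contDiffAt).differentiableAt (by simp)).hasDerivAt
  have h4 := h3.comp_hasFDerivAt p (differentiableAt_qF h).hasFDerivAt
  have h5 : fderiv ℝ cF p = deriv phF (qF p) • fderiv ℝ qF p := h4.fderiv
  rw [h5, norm_smul, Real.norm_eq_abs]
  exact mul_le_mul (hK _) (norm_fderiv_qF h1 h2) (norm_nonneg _) ((abs_nonneg _).trans (hK 0))

theorem cF_eq_one {ε : Fin 3 → ℂ} {w : ℂ} (h : qF (ε, w) < 1 / 2) : cF (ε, w) = 1 :=
  phF_eq_one h.le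

theorem deriv_phF_eq_zero {q : ℝ} (h : q ≤ 1 / 2 ∨ 1 ≤ q) : deriv phF q = 0 := by
  have hc : Continuous (deriv phF) := contDiff_phF.continuous_deriv (by simp)
  have h0 : ∀ z, z < 1 / 2 ∨ 1 < z → deriv phF z = 0 := by
    rintro z (hz | hz)
    · have h3 : phF =ᶠ[𝓝 z] fun _ => (1 : ℝ) := by
        filter_upwards [gt_mem_nhds hz] with t ht using phF_eq_one (le_of_lt ht)
      rw [h3.deriv_eq]
      simp
    · have h3 : phF =ᶠ[𝓝 z] fun _ => (0 : ℝ) := by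
        filter_upwards [lt_mem_nhds hz] with t ht using phF_eq_zero (le_of_lt ht)
      rw [h3.deriv_eq]
      simp
  have hcl : IsClosed {z | deriv phF z = 0} := isClosed_eq hc continuous_const
  have hsub : Iio (1 / 2) ∪ Ioi 1 ⊆ {z | deriv phF z = 0} := fun z hz => h0 z hz
  have h1 := closure_minimal hsub hcl
  rw [closure_union, closure_Iio, closure_Ioi] at h1
  exact h1 h

theorem fderiv_cF_of {p : (Fin 3 → ℂ) × ℂ} (hne : ∀ k, p.1 k ≠ 0)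
    (h : qF p ≤ 1 / 2 ∨ 1 ≤ qF p) : fderiv ℝ cF p = 0 := by
  have h3 : HasDerivAt phF (deriv phF (qF p)) (qF p) :=
    ((contDiff_phF.contDiffAt).differentiableAt (by simp)).hasDerivAt
  have h4 := h3.comp_hasFDerivAt p (differentiableAt_qF hne).hasFDerivAt
  have h5 : fderiv ℝ cF p = deriv phF (qF p) • fderiv ℝ qF p := h4.fderiv
  rw [h5, deriv_phF_eq_zero h, zero_smul]

theorem fderiv_cF_zero {ε : Fin 3 → ℂ} (hne : ∀ k, ε k ≠ 0) :
    fderiv ℝ cF (ε, (0 : ℂ)) = 0 :=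
  fderiv_cF_of (p := (ε, 0)) hne (Or.inl (by simp [qF]))

theorem fderiv_cF_zero' {p : (Fin 3 → ℂ) × ℂ} (hne : ∀ k, p.1 k ≠ 0) (h : 1 ≤ qF p) :
    fderiv ℝ cF p = 0 := fderiv_cF_of hne (Or.inr h)

theorem one_le_qF {ε : Fin 3 → ℂ} {w : ℂ} (h : 1 / 12 ≤ ‖w‖) : 1 ≤ qF (ε, w) := by
  have h1 : (3872 : ℝ) ≤ R2 ε := by
    have h2 : 2 * (‖ctr 2‖ ^ 2 + ‖ε 2‖) ≤ ∑ k, 2 * (‖ctr k‖ ^ 2 + ‖ε k‖) :=
      Finset.single_le_sum (f := fun k : Fin 3 => 2 * (‖ctr k‖ ^ 2 + ‖ε k‖))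
        (fun k _ => by positivity) (Finset.mem_univ 2)
    have h3 : ‖ctr 2‖ ^ 2 = 121 / 4 := by
      have h4 : ctr 2 = ((11 / 2 : ℝ) : ℂ) := by
        simp only [ctr]
        push_cast
        norm_num
      rw [h4, Complex.norm_real, Real.norm_eq_abs, sq_abs]
      norm_num
    have h5 := norm_nonneg (ε 2)
    rw [R2]
    linarith
  have h2 : (1 / 12) ^ 2 ≤ ‖w‖ ^ 2 := pow_le_pow_left₀ (by norm_num) h 2
  unfold qF
  calc (1 : ℝ) ≤ (1 / 12) ^ 2 * 3872 := by norm_num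
    _ ≤ ‖w‖ ^ 2 * R2 ε := mul_le_mul h2 h1 (by norm_num) (by positivity)

/-! ### the cut-off core function -/

section KG

open H630 (sep_ctr ell0 I0 D0)
open H517 (KF)

/-- helper517's `KF` cut off at infinity -/
def KG (p : (Fin 3 → ℂ) × ℂ) : (Fin 3 → ℂ) →L[ℂ] ℂ := (1 - cF p) • KF sep_ctr ell0 p

theorem KG_apply (p : (Fin 3 → ℂ) × ℂ) (c : Fin 3 → ℂ) :
    KG p c = ((1 - cF p : ℝ) : ℂ) * KF sep_ctr ell0 p c := by
  rw [KG, smul_apply, Complex.real_smul]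

theorem exists_KG : ∃ A : ℝ, 0 < A ∧ ∀ ε : Fin 3 → ℂ, ‖ε‖ ≤ I0.rad → ‖ε‖ ≤ 1 →
    (∀ k, ε k ≠ 0) → ∀ w : ℂ, ‖w‖ ≤ 1 / 8 →
    DifferentiableAt ℝ (KF sep_ctr ell0) (ε, w) ∧ DifferentiableAt ℝ KG (ε, w) ∧
    ‖KG (ε, w)‖ ≤ A ∧ ‖fderiv ℝ KG (ε, w)‖ ≤ A := by
  have h7 : ∀ l, ‖ctr l‖ ≤ 7 := by
    intro l
    have h := norm_ctr l
    nlinarith [norm_nonneg (ctr l)]
  obtain ⟨A, hA, h⟩ := H517.KF_bound sep_ctr ell0 h7
  obtain ⟨K, hK0, hK⟩ := exists_bound_phF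
  refine ⟨A + K * 38000 * A, by positivity, fun ε hε hε1 hne w hw => ?_⟩
  obtain ⟨-, h1, h2, h3⟩ := h ε hε w hw
  have hd : DifferentiableAt ℝ (KF sep_ctr ell0) (ε, w) := h1.differentiableAt (by simp)
  have hc := hasFDerivAt_cF (p := (ε, w)) hne
  have hG := (hc.const_sub 1).smul hd.hasFDerivAt
  have hcn := norm_fderiv_cF hK (p := (ε, w)) hne hε1 (hw.trans (by norm_num))
  have hc0 : 0 ≤ cF (ε, w) := phF_nonneg _
  have hc1 : cF (ε, w) ≤ 1 := phF_le_one _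
  have hn : ‖(1 - cF (ε, w) : ℝ)‖ ≤ 1 := by
    rw [Real.norm_eq_abs, abs_le]
    constructor <;> linarith
  refine ⟨hd, hG.differentiableAt, ?_, ?_⟩
  · rw [KG, norm_smul]
    have h4 : ‖(1 - cF (ε, w) : ℝ)‖ * ‖KF sep_ctr ell0 (ε, w)‖ ≤ 1 * A :=
      mul_le_mul hn h2 (norm_nonneg _) zero_le_one
    have h5 : 0 ≤ K * 38000 * A := by positivity
    linarith
  · have e1 : fderiv ℝ KG (ε, w) = (1 - cF (ε, w)) • fderiv ℝ (KF sep_ctr ell0) (ε, w) +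
        (-fderiv ℝ cF (ε, w)).smulRight (KF sep_ctr ell0 (ε, w)) := hG.fderiv
    rw [e1]
    refine ContinuousLinearMap.opNorm_le_bound _ (by positivity) fun v => ?_
    have e2 : ((1 - cF (ε, w)) • fderiv ℝ (KF sep_ctr ell0) (ε, w) +
        (-fderiv ℝ cF (ε, w)).smulRight (KF sep_ctr ell0 (ε, w))) v =
        (1 - cF (ε, w)) • fderiv ℝ (KF sep_ctr ell0) (ε, w) v +
          (-fderiv ℝ cF (ε, w) v) • KF sep_ctr ell0 (ε, w) := rfl
    rw [e2]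
    have f1 : ‖(1 - cF (ε, w)) • fderiv ℝ (KF sep_ctr ell0) (ε, w) v‖ ≤ A * ‖v‖ := by
      rw [norm_smul]
      have f2 : ‖fderiv ℝ (KF sep_ctr ell0) (ε, w) v‖ ≤ A * ‖v‖ :=
        (ContinuousLinearMap.le_opNorm _ v).trans (mul_le_mul_of_nonneg_right h3 (norm_nonneg _))
      calc ‖(1 - cF (ε, w) : ℝ)‖ * ‖fderiv ℝ (KF sep_ctr ell0) (ε, w) v‖ ≤ 1 * (A * ‖v‖) :=
            mul_le_mul hn f2 (norm_nonneg _) zero_le_one
        _ = A * ‖v‖ := one_mul _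
    have f3 : ‖(-fderiv ℝ cF (ε, w) v) • KF sep_ctr ell0 (ε, w)‖ ≤ K * 38000 * ‖v‖ * A := by
      rw [norm_smul, norm_neg]
      have f4 : ‖fderiv ℝ cF (ε, w) v‖ ≤ K * 38000 * ‖v‖ :=
        (ContinuousLinearMap.le_opNorm _ v).trans (mul_le_mul_of_nonneg_right hcn (norm_nonneg _))
      exact mul_le_mul f4 h2 (norm_nonneg _) (by positivity)
    refine (norm_add_le _ _).trans ((add_le_add f1 f3).trans (le_of_eq ?_))
    ring

end KG

end Vale.Agent.P273.H681.FarK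

end
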