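/-!
Tables of the values of a functional on the monomials of degree seven in five variables, and the
half twists on tables. Everything reduces in the kernel.
-/

namespace Vale.Agent.P273.H681

/-- nested tables: the entry at `a`, `b`, `c`, `d` is the value at
`X0^a X1^b X2^c X3^d X4^(7 - a - b - c - d)` -/
abbrev Tb := List (List (List (List Int)))

/-- entry of a list -/
def nth {α : Type} (d : α) : List α → Nat → α
  | [], _ => d
  | x :: _, 0 => x
  | _ :: xs, n + 1 => nth d xs n

/-- entry of a table -/
def gt (t : Tb) (a b c d : Nat) : Int := nth 0 (nth [] (nth [] (nth [] t a) b) c) d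

/-- the list `f s, f (s + 1), ..`, `n` entries -/
def bl {α : Type} (f : Nat → α) : Nat → Nat → List α
  | 0, _ => []
  | n + 1, s => f s :: bl f n (s + 1)

/-- the table of a function -/
def tab (f : Nat → Nat → Nat → Nat → Int) : Tb :=
  bl (fun a => bl (fun b => bl (fun c => bl (fun d => f a b c d) (8 - a - b - c) 0) (8 - a - b) 0)
    (8 - a) 0) 8 0

/-- rows of binomial coefficients times the powers of `1` -/
def rw1 : List (List Int) := [[1], [1, 1], [1, 2, 1], [1, 3, 3, 1], [1, 4, 6, 4, 1],
  [1, 5, 10, 10, 5, 1], [1, 6, 15, 20, 15, 6, 1], [1, 7, 21, 35, 35, 21, 7, 1]]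

/-- rows of binomial coefficients times the powers of `-1` -/
def rwn : List (List Int) := [[1], [1, -1], [1, -2, 1], [1, -3, 3, -1], [1, -4, 6, -4, 1],
  [1, -5, 10, -10, 5, -1], [1, -6, 15, -20, 15, -6, 1], [1, -7, 21, -35, 35, -21, 7, -1]]

/-- rows of binomial coefficients times the powers of `-2` -/
def rwt : List (List Int) := [[1], [1, -2], [1, -4, 4], [1, -6, 12, -8], [1, -8, 24, -32, 16],
  [1, -10, 40, -80, 80, -32], [1, -12, 60, -160, 240, -192, 64],
  [1, -14, 84, -280, 560, -672, 448, -128]]

/-- sum of a row against values -/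
def dot (g : Nat → Int) : List Int → Nat → Int
  | [], _ => 0
  | x :: xs, t => x * g t + dot g xs (t + 1)

/-- the elementary substitutions on tables -/
def e20 (v : Tb) : Tb := tab fun a b c d => dot (fun t => gt v (a + t) b (c - t) d) (nth [] rw1 c) 0
def e31 (v : Tb) : Tb := tab fun a b c d => dot (fun t => gt v a (b + t) c (d - t)) (nth [] rw1 d) 0
def e02 (v : Tb) : Tb := tab fun a b c d => dot (fun t => gt v (a - t) b (c + t) d) (nth [] rwn a) 0
def e13 (v : Tb) : Tb := tab fun a b c d => dot (fun t => gt v a (b - t) c (d + t)) (nth [] rwn b) 0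
def e32 (v : Tb) : Tb := tab fun a b c d => dot (fun t => gt v a b (c + t) (d - t)) (nth [] rw1 d) 0
def e34 (v : Tb) : Tb := tab fun a b c d => dot (fun t => gt v a b c (d - t)) (nth [] rwt d) 0
def e10 (v : Tb) : Tb := tab fun a b c d => dot (fun t => gt v (a + t) (b - t) c d) (nth [] rw1 b) 0
def e40 (v : Tb) : Tb := tab fun a b c d =>
  dot (fun t => gt v (a + t) b c d) (nth [] rw1 (7 - a - b - c - d)) 0
def e01 (v : Tb) : Tb := tab fun a b c d => dot (fun t => gt v (a - t) (b + t) c d) (nth [] rwn a) 0
def e23 (v : Tb) : Tb := tab fun a b c d => dot (fun t => gt v a b (c - t) (d + t)) (nth [] rwn c) 0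

/-- the half twists on tables -/
def q0 (v : Tb) : Tb := e20 (e31 v)
def q1 (v : Tb) : Tb := e02 (e13 v)
def q2 (v : Tb) : Tb := e31 (e32 (e34 (e10 (e20 (e40 v)))))
def q3 (v : Tb) : Tb := e01 (e23 v)
def q4 (v : Tb) : Tb := e10 (e32 v)

/-- equality of lists -/
def eqI : List Int → List Int → Bool
  | [], [] => true
  | x :: xs, y :: ys => (x == y) && eqI xs ys
  | _, _ => false

def eq2 : List (List Int) → List (List Int) → Bool
  | [], [] => true
  | x :: xs, y :: ys => eqI x y && eq2 xs ys
  | _, _ => false

def eq3 : List (List (List Int)) → List (List (List Int)) → Bool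
  | [], [] => true
  | x :: xs, y :: ys => eq2 x y && eq3 xs ys
  | _, _ => false

def eq4 : Tb → Tb → Bool
  | [], [] => true
  | x :: xs, y :: ys => eq3 x y && eq4 xs ys
  | _, _ => false

end Vale.Agent.P273.H681
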